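import Vale.Agent.P088.R2.H871.E.Ze

/-!
# P088, stage 3, EST': leaves with a flat cut-off: margins and costs of the forms `MA`, `coA`, `coU`
-/

open Set Filter
open scoped ContDiff Topology Matrix

noncomputable section

namespace Vale.Agent.P088.R2.H871.E

open Vale.Agent.P088.LR Vale.Agent.P088.HY
open Vale.Agent.P088.R2.H31.EP
open Vale.Agent.P088.R2.H867.EP
open Vale.Agent.P088.R2.H551.E Vale.Agent.P088.R2.H747.SW
open Vale.Agent.P088.R2.H961.GW Vale.Agent.P088.R2.H644 Vale.Agent.P088.R2.H960.W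

section gen

variable {E ι : Type*} [NormedAddCommGroup E] [NormedSpace ℝ E] [Fintype ι]
  {σ τ : Sl E ι} {W m m₁ m₂ χ : E → ℝ} {z : E} {η ε δ K c₂ G s N n₁ n₂ : ℝ}

/-- `6/η m Z ≤ t s n F` from `Z ≤ δ s N`, `m ≤ K G`, `F ≥ c₂ G²`. -/
theorem wcost {μ Z n F t : ℝ} (hη : 0 < η) (hμ : μ ≤ K * G) (hμ0 : 0 ≤ μ)
    (hG : 1 ≤ G) (hZ : Z ≤ δ * (s * N)) (hs : 0 ≤ s) (hN : 0 ≤ N) (hn : N ≤ n) (hδ : 0 ≤ δ)
    (hc : 0 ≤ c₂) (hF : c₂ * G ^ 2 ≤ F) (ht : 0 ≤ t) (h : 6 * K * δ ≤ t * (η * c₂)) :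
    6 / η * (μ * Z) ≤ t * (s * (n * F + s * n ^ 2)) := by
  have hn0 : 0 ≤ n := hN.trans hn
  have h1 : μ * Z ≤ K * G * (δ * (s * N)) := by
    have a1 := mul_le_mul_of_nonneg_left hZ hμ0
    have a2 : 0 ≤ δ * (s * N) := by positivity
    exact a1.trans (mul_le_mul_of_nonneg_right hμ a2)
  have h2 : 6 / η * (μ * Z) ≤ 6 / η * (K * G * (δ * (s * N))) :=
    mul_le_mul_of_nonneg_left h1 (by positivity)
  have h3 : 6 / η * (K * G * (δ * (s * N))) = 6 * K * δ * (G * (s * N)) / η := by ring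
  have h4 : 6 * K * δ * (G * (s * N)) / η ≤ t * c₂ * (G * (s * N)) := by
    rw [div_le_iff₀ hη]
    have : 0 ≤ G * (s * N) := by positivity
    have := mul_le_mul_of_nonneg_right h this
    linarith
  have h5 : c₂ * G ≤ F := by
    refine le_trans ?_ hF
    have : G ≤ G ^ 2 := by nlinarith
    exact mul_le_mul_of_nonneg_left this hc
  have h6 : t * c₂ * (G * (s * N)) ≤ t * (s * (n * F + s * n ^ 2)) := by
    have a1 : c₂ * G * N ≤ F * n := mul_le_mul h5 hn hN (le_trans (by positivity) h5)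
    have a2 : 0 ≤ s * n ^ 2 := by positivity
    have a3 : c₂ * G * N ≤ n * F + s * n ^ 2 := by linarith
    have a4 := mul_le_mul_of_nonneg_left (mul_le_mul_of_nonneg_left a3 hs) ht
    calc _ = t * (s * (c₂ * G * N)) := by ring
      _ ≤ _ := a4
  linarith

/-- The cost `coA` of a leaf with a flat cut-off. -/
theorem coA_small (l₁ : El2 σ z) (l₂ : El2 τ z) (hη : 0 < η) (hm : m z ≤ K * G)
    (hm0 : 0 ≤ m z) (hK : 0 ≤ K) (hG : 1 ≤ G)
    (hZ₁ : ∑ i, σ.D i χ z ^ 2 ≤ δ * (s * N)) (hZ₂ : ∑ i, τ.D i χ z ^ 2 ≤ δ * (s * N))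
    (hs : 0 ≤ s) (hN : 0 ≤ N) (h1 : N ≤ n₁) (h2 : N ≤ n₂) (hδ : 0 ≤ δ) (hc : 0 ≤ c₂)
    (hF₁ : c₂ * G ^ 2 ≤ σ.F W z) (hF₂ : c₂ * G ^ 2 ≤ τ.F W z) (hε : 0 ≤ ε)
    (e₁ : 576 * η * δ ≤ ε) (e₂ : 12 * K * δ ≤ ε * (η * c₂)) :
    CB ε s n₁ n₂ (σ.F W z) (τ.F W z) (coA σ τ W m χ η) z := by
  have hr := rh_nonneg (m := m) (z := z) hm0
  have hr1 : rh m z ≤ 1 := by
    unfold rh
    rw [div_le_one (by positivity)]
    linarith
  have t0 : 0 ≤ δ * (s * N) := by positivity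
  have key : ∀ {n : ℝ}, N ≤ n → 32 * η * (rh m z * (δ * (s * N))) ≤ ε / 18 * (s * n) := by
    intro n hn
    have a1 : rh m z * (δ * (s * N)) ≤ δ * (s * N) := mul_le_of_le_one_left t0 hr1
    have a2 := mul_le_mul_of_nonneg_left a1 (by positivity : 0 ≤ 32 * η)
    have a3 : 0 ≤ s * N := by positivity
    have a4 := mul_le_mul_of_nonneg_right e₁ a3
    have a5 := mul_le_mul_of_nonneg_left (mul_le_mul_of_nonneg_left hn hs) hε
    linarith
  have e₂' : 6 * K * δ ≤ ε / 2 * (η * c₂) := by linarith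
  exact coA_CB l₁ l₂ hη hm0 hZ₁ hZ₂ (key h1) (key h2)
    (wcost hη hm hm0 hG le_rfl hs hN h1 hδ hc hF₁ (by linarith) e₂')
    (wcost hη hm hm0 hG le_rfl hs hN h2 hδ hc hF₂ (by linarith) e₂') hε hs (hN.trans h1)
    (hN.trans h2)

end gen

variable {n : ℕ} {q : Cst} {d : Pk n} {z : VV n}

/-- The top part is not seen below `l₀ + 2.6 R`. -/
theorem Θd_zero (h : PkOk q d) {t : ℝ} (ht : t < d.l₀ q + 26 / 10 * q.R) : deriv d.Θ t = 0 := by
  have e : d.Θ =ᶠ[𝓝 t] fun _ => (0 : ℝ) := by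
    filter_upwards [(isOpen_lt continuous_id continuous_const).mem_nhds ht] with w hw
    exact h.Θ0 w (le_of_lt hw)
  rw [e.deriv_eq, deriv_const]

/-- At the points of the near tree the rates are `Φ'(u0)`. -/
theorem nx_near (hI : H404.INF.InfC q) (h : PkOk q d) (nr : Nr q d z) :
    nx q d z = deriv d.Φ (d.u0 z) ∧ ny q d z = deriv d.Φ (d.u0 z) := by
  have hR := hI.R0
  have a1 := (H404.INF.gl_le hI h).1 nr.ok.g1
  have a2 := (H404.INF.gl_le hI h).1 nr.ok.g2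
  unfold nx ny
  rw [Θd_zero h (by linarith), Θd_zero h (by linarith)]
  simp

end Vale.Agent.P088.R2.H871.E
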