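import Vale.Agent.P088.R2.H509.EP.Lit2
import Vale.Agent.P088.R2.H404.INF.Cut

/-!
# P088, stage 3, EST': the layers of infinity, basic facts

The level of the package satisfies helper404's `LvG`; `u - u0` is at most `1 / 4`; all the radii
of the cuts near the diagonal are much smaller than `κ₁ R`; `VS(u) = 1` for
`2 l₀ + 4.55 R ≤ u0 ≤ 2 l₀ + 4.65 R`.
-/

open Set Filter
open scoped ContDiff Topology Matrix

noncomputable section

namespace Vale.Agent.P088.R2.H871.E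

open Vale.Agent.P088.LR Vale.Agent.P088.HY
open Vale.Agent.P088.R2.H31.EP
open Vale.Agent.P088.R2.H464.Cu (mid dif rq)
open Vale.Agent.P088.R2.H867.EP

variable {n : ℕ} {q : Cst} {d : Pk n} {z : VV n}

/-! ## The level -/

theorem lam0_eq (q : Cst) (d : Pk n) : H475.lam0 q.R d.kap d.Gs = d.l₀ q := rfl

theorem l0_bd (h : PkOk q d) (hR : 1 ≤ q.R) (hC : 1 ≤ q.Ck) :
    0 ≤ d.l₀ q ∧ d.l₀ q ≤ 2 * q.η * q.R := by
  have hR0 : 0 < q.R := by linarith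
  have hk0 : 0 < d.kap := by linarith [h.k1]
  have h1 : q.R ≤ d.kap := by
    refine le_trans ?_ h.kC
    calc q.R = q.R ^ (1 : ℝ) := (Real.rpow_one _).symm
      _ ≤ q.R ^ q.Ck := Real.rpow_le_rpow_of_exponent_le hR hC
  have h2 : 0 ≤ Real.log (d.kap / q.R) := Real.log_nonneg (by rwa [le_div_iff₀ hR0, one_mul])
  have h3 : Real.log (d.kap / q.R) ≤ q.η * q.R := by
    rw [Real.log_div hk0.ne' hR0.ne']
    have h4 : Real.log d.kap ≤ q.η * q.R := by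
      rw [Real.log_le_iff_le_exp hk0]; exact h.kη
    have h5 := Real.log_nonneg hR
    linarith
  have h4 : 0 ≤ -(q.R * d.Gs) := by
    have := mul_nonneg hR0.le (neg_nonneg.2 h.G0)
    linarith
  have h5 : -(q.R * d.Gs) ≤ q.η * q.R := by
    have := mul_le_mul_of_nonneg_left h.G1 hR0.le
    linarith
  unfold Pk.l₀
  constructor <;> linarith

/-- The level of the package. -/
theorem lvG_of (h : PkOk q d) (hR : 1 ≤ q.R) (hC : 1 ≤ q.Ck) (h0 : 0 < q.σ)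
    (h1 : q.σ ≤ 1 / 5000) (hη : q.η ≤ 1 / 200) :
    H404.INF.LvG q.σ q.R (d.l₀ q) (H475.gg n q.σ) d.l where
  g := H404.INF.glv_gg h0 h1
  eq x := by
    rw [h.lev.lit, H475.levG_eq, lam0_eq]
  σ0 := h0
  σ1 := h1
  R0 := by linarith
  l0 := (l0_bd h hR hC).1
  l1 := by
    have := (l0_bd h hR hC).2
    nlinarith

theorem EvC.lvG (n : ℕ) : EvC fun q => ∀ d : Pk n, PkOk q d →
    H404.INF.LvG q.σ q.R (d.l₀ q) (H475.gg n q.σ) d.l := by
  have h1 : EvC fun q => q.σ ≤ 1 / 5000 :=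
    EvC.at_σ (fun _ t => t ≤ 1 / 5000) fun _ => sml_le (by norm_num)
  have h2 : EvC fun q => q.η ≤ 1 / 200 :=
    EvC.at_η (fun _ t => t ≤ 1 / 200) fun _ => sml_le (by norm_num)
  refine (EvC.pos.and (h1.and h2)).mono ?_
  rintro q ⟨⟨-, ⟨-, a2, -⟩, -, -, -, -, a3, a4⟩, b1, b2⟩ d h
  exact lvG_of h a4 a3 a2 b1 b2

/-! ## The cut variables are those of helper404 -/

theorem tinf_eq (q : Cst) (d : Pk n) (z : VV n) :
    d.tinf q z = H404.INF.tinf q.κ₁ q.σ q.R (d.l₀ q) d.l z := by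
  unfold Pk.tinf H404.INF.tinf qq Pk.u0
  rw [neg_mul]

theorem thi_eq (q : Cst) (d : Pk n) (z : VV n) :
    d.thi q z = H404.INF.thi q.R (d.l₀ q) d.l z := rfl

theorem tfs_eq (q : Cst) (d : Pk n) (z : VV n) :
    d.tfs q z = H404.INF.tfs q.σ q.R d.l z := rfl

/-! ## `u` and `u0` -/

theorem u_u0 (h : PkOk q d) (z : VV n) : |d.u q z - d.u0 z| ≤ 1 / 4 := by
  have e : d.u q z - d.u0 z = 2 * (d.χ (H31.EP.r2 (gi d.s₁) z) * d.μc q (d.l (mid z))) := by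
    show d.l z.1 + d.l z.2 + 2 * (d.χ (H31.EP.r2 (gi d.s₁) z) * d.μc q (d.l (mid z))) -
      (d.l z.1 + d.l z.2) = _
    ring
  have h1 := h.χb (H31.EP.r2 (gi d.s₁) z)
  have h2 : |d.μc q (d.l (mid z))| ≤ 1 / 8 := (d.μc_abs q _).trans (h.ph.μb _)
  rw [e, abs_mul, abs_mul, abs_of_nonneg h1.1, abs_two]
  have h3 := mul_le_mul h1.2 h2 (abs_nonneg _) zero_le_one
  linarith

/-! ## The radii -/

/-- The radii of the cuts near the diagonal are small compared with `κ₁ R`. -/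
theorem EvC.rads : EvC fun q => 4 * q.c₀ ^ 2 < (q.κ₁ * q.R) ^ 2 / 8 ∧
    (2 * q.p₁) ^ 2 < (q.κ₁ * q.R) ^ 2 / 8 ∧ (prR q.e₁ + 1) ^ 2 < (q.κ₁ * q.R) ^ 2 / 8 := by
  have key : EvC fun q => 0 < q.κ₁ → 4 * q.c₀ ^ 2 < (q.κ₁ * q.R) ^ 2 / 8 ∧
      (2 * q.p₁) ^ 2 < (q.κ₁ * q.R) ^ 2 / 8 ∧ (prR q.e₁ + 1) ^ 2 < (q.κ₁ * q.R) ^ 2 / 8 := by
    refine EvC.at_R (fun q t => 0 < q.κ₁ → 4 * q.c₀ ^ 2 < (q.κ₁ * t) ^ 2 / 8 ∧
      (2 * q.p₁) ^ 2 < (q.κ₁ * t) ^ 2 / 8 ∧ (prR q.e₁ + 1) ^ 2 < (q.κ₁ * t) ^ 2 / 8) fun q => ?_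
    by_cases hk : 0 < q.κ₁
    · have ht : Tendsto (fun t : ℝ => (q.κ₁ * t) ^ 2 / 8) atTop atTop :=
        ((tendsto_pow_atTop (by norm_num)).comp (tendsto_id.const_mul_atTop hk)).atTop_div_const
          (by norm_num)
      filter_upwards [ht.eventually_gt_atTop (4 * q.c₀ ^ 2), ht.eventually_gt_atTop
        ((2 * q.p₁) ^ 2), ht.eventually_gt_atTop ((prR q.e₁ + 1) ^ 2)] with t a b c _
      exact ⟨a, b, c⟩
    · exact Eventually.of_forall fun _ h => absurd h hk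
  exact (EvC.pos.and key).mono fun q hq => hq.2 hq.1.2.1.1

/-! ## The top: `VS = 1` -/

theorem EvC.top (n : ℕ) : EvC fun q => ∀ d : Pk n, PkOk q d → ∀ u : ℝ,
    2 * d.l₀ q + 91 / 20 * q.R - 1 / 4 ≤ u → u ≤ 2 * d.l₀ q + 93 / 20 * q.R + 1 / 4 →
    d.VS q u = 1 ∧ q.L * (q.R / 20 - 5 / 4) + 23 / 5 * q.R ≤ Real.log (deriv d.Φ u) := by
  have h1 : EvC fun q => 100 ≤ q.R ∧ 100 * (20 + Real.log q.nm) ≤ q.R := by
    refine EvC.at_R (fun q t => 100 ≤ t ∧ 100 * (20 + Real.log q.nm) ≤ t) fun q => ?_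
    exact (eventually_ge_atTop _).and (eventually_ge_atTop _)
  have h2 : EvC fun q => q.η ≤ 1 / 200 :=
    EvC.at_η (fun _ t => t ≤ 1 / 200) fun _ => sml_le (by norm_num)
  have h3 : EvC fun q => q.σ ≤ 1 := EvC.at_σ (fun _ t => t ≤ 1) fun _ => sml_le one_pos
  refine (EvC.pos.and (h1.and (h2.and h3))).mono ?_
  rintro q ⟨⟨-, ⟨-, a2, -, -, -, a5, -⟩, a6, -, -, -, a3, a4⟩, ⟨b1, b2⟩, b3, b4⟩ d h u hu1 hu2
  obtain ⟨l1, l2⟩ := l0_bd h a4 a3
  have hl : d.l₀ q ≤ q.R / 100 := by nlinarith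
  have hL : 10 ≤ q.L := by
    rw [Cst.L, le_div_iff₀ a2]
    nlinarith
  have e1 : d.uth q = 2 * d.l₀ q + 22 / 10 * q.R := rfl
  have e2 : d.uta q = 2 * d.l₀ q + 45 / 10 * q.R := rfl
  have e3 : d.utb q = 2 * d.l₀ q + 47 / 10 * q.R := rfl
  have hN0 := h.N_ge (d.uth q)
  have hM : (1 : ℝ) ≤ deriv d.Φ (d.uth q) := a6.trans hN0
  have y1 := h.top.y1 (d.uta q) (by rw [e1, e2]; linarith) le_rfl
  have y3 := h.top.y3 u (by rw [e2]; linarith) (by rw [e3]; linarith)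
  have hmono : deriv d.Φ (d.uta q) ≤ deriv d.Φ (d.uta q + 1) := by
    have : Monotone (deriv d.Φ) := monotone_of_deriv_nonneg
      (h.Φ's.differentiable (by simp)) fun u => (h.top.k0 u).le
    exact this (by linarith)
  have hN1 : Real.exp (23 / 5 * q.R) ≤ deriv d.Φ (d.uta q + 1) := by
    refine le_trans ?_ hmono
    rw [y1]
    have e4 : 2 * (d.uta q - d.uth q) = 23 / 5 * q.R := by rw [e1, e2]; ring
    rw [e4]
    have := Real.exp_pos (23 / 5 * q.R)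
    nlinarith
  have hlog : q.L * (q.R / 20 - 5 / 4) + 23 / 5 * q.R ≤ Real.log (deriv d.Φ u) := by
    have hp := h.N_pos a6 u
    rw [Real.le_log_iff_exp_le hp, y3, add_comm, Real.exp_add]
    refine mul_le_mul hN1 (Real.exp_le_exp.2 ?_) (Real.exp_pos _).le ?_
    · refine mul_le_mul_of_nonneg_left ?_ (by linarith)
      rw [e2]; linarith
    · exact (Real.exp_pos _).le.trans hN1
  refine ⟨?_, hlog⟩
  have k1 : 1 ≤ Real.log (deriv d.Φ u) - u - Real.log q.nm := by nlinarith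
  have k2 : 1 ≤ u - d.uth q := by rw [e1]; linarith
  unfold Pk.VS
  rw [Real.smoothTransition.one_of_one_le k1, Real.smoothTransition.one_of_one_le k2, one_mul]

end Vale.Agent.P088.R2.H871.E
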