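import Vale.Agent.P088.R2.H871.E.Rs
import Vale.Agent.P088.R2.H844.E.Reg
import Vale.Agent.P088.R2.H168.INF.Spec2

/-!
# P088, stage 3, EST': the payments of all pairs where `tinf > 0`
-/

open Set Filter
open scoped ContDiff Topology Matrix

noncomputable section

namespace Vale.Agent.P088.R2.H871.E

open Vale.Agent.P088.LR Vale.Agent.P088.HY
open Vale.Agent.P088.R2.H31.EP
open Vale.Agent.P088.R2.H867.EP
open Vale.Agent.P088.R2.H455.E
open Vale.Agent.P088.R2.H551.E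
open Vale.Agent.P088.R2.H961.GW Vale.Agent.P088.R2.H644 Vale.Agent.P088.R2.H960.W
open Vale.Agent.P088.R2.H404.INF (InfC evInf)

variable {n : ℕ} {q : Cst} {d : Pk n} {z : VV n}

/-- The leaves which can be alive where `tinf > 0`. -/
def AlI (k : Zo) : Prop := Inf k ∨ RS k ∨ k = .z0 ∨ k = .A1 ∨ k = .A2 ∨ k = .Af

theorem ev_alI (n : ℕ) : EvC fun q => ∀ d : Pk n, PkOk q d → ∀ z : VV n, 0 < d.tinf q z →
    ∀ k, d.ch q k z ≠ 0 → AlI k := by
  refine (EvC.liv n).mono fun q hq d h z hz k hk => ?_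
  by_cases hI : Inf k
  · exact Or.inl hI
  · unfold AlI RS
    rcases (hq d h z hz k hI hk).cas with ⟨c, -⟩ | ⟨c, -⟩ | ⟨c, -⟩ <;> tauto

/-- Above the level `l₀ + 3 R` only `iH` is alive and its cut-off is flat. -/
theorem ev_out (n : ℕ) : EvC fun q => ∀ d : Pk n, PkOk q d → ∀ z : VV n,
    (d.l₀ q + 3 * q.R ≤ d.l z.1 ∨ d.l₀ q + 3 * q.R ≤ d.l z.2) → ∀ k, d.ch q k z ≠ 0 →
      k = .iH ∧ (∀ i, d.sx.D i (d.ch q .iH) z = 0) ∧ ∀ i, d.sy.D i (d.ch q .iH) z = 0 := by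
  refine (((EvC.nr n).and (EvC.litSm n)).and evInf).mono ?_
  rintro q ⟨⟨hnr, hlit⟩, hI⟩ d h z hz k hk
  have hR := hI.R0
  have hhi : 1 ≤ d.thi q z := by
    have s0 := Real.smoothTransition.nonneg (20 * (d.u0 z - 2 * d.l₀ q) / q.R - 91)
    have s1 := Real.smoothTransition.nonneg (20 * d.gl q z.1 - 58)
    have s2 := Real.smoothTransition.nonneg (20 * d.gl q z.2 - 58)
    have key : ∀ x : V n, d.l₀ q + 3 * q.R ≤ d.l x →
        Real.smoothTransition (20 * d.gl q x - 58) = 1 := fun x hx => by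
      refine Real.smoothTransition.one_of_one_le ?_
      have : 3 ≤ d.gl q x := by
        unfold Pk.gl
        rw [le_div_iff₀ hR]
        linarith
      linarith
    unfold Pk.thi
    rcases hz with hz | hz
    · rw [key _ hz]; linarith
    · rw [key _ hz]; linarith
  have hti : 1 ≤ d.tinf q z := by
    by_contra hc
    have nr := hnr d h z (not_le.1 hc)
    have a1 := (H404.INF.gl_le hI h).1 nr.ok.g1
    have a2 := (H404.INF.gl_le hI h).1 nr.ok.g2
    rcases hz with hz | hz <;> linarith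
  have hkI : Inf k := by
    by_contra hc
    exact absurd (tinf_of hc hk) (not_lt.2 hti)
  have hk' : k = .iH := by
    rcases hkI with rfl | rfl | rfl
    · rfl
    · exact absurd (alive_iF (fun i => Fl_pair i) hk).1 (not_lt.2 hhi)
    · exact absurd (alive_iS (fun i => Fl_pair i) hk).1 (not_lt.2 hhi)
  have hoff : ∀ v : VV n, ∀ i ∈ path .iH, 0 < d.cv q i z → d.cv q i z < 1 →
      |fderiv ℝ (d.cv q i) z v| ≤ 0 * H404.INF.en2 v := by
    intro v i hi _ h2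
    have hc : i = .inf ∨ i = .hi := by cases i <;> revert hi <;> decide
    rcases hc with rfl | rfl
    · exact absurd h2 (not_lt.2 hti)
    · exact absurd h2 (not_lt.2 hhi)
  obtain ⟨z1, z2⟩ := Z_le (hlit d h) hoff
  have e0 : (n : ℝ) * (7 * BF * 0) ^ 2 = 0 := by ring
  rw [e0] at z1 z2
  have z1' := (Finset.sum_eq_zero_iff_of_nonneg (fun i _ => sq_nonneg
    (d.sx.D i (d.ch q .iH) z))).1 (le_antisymm z1 (Finset.sum_nonneg fun _ _ => sq_nonneg _))
  have z2' := (Finset.sum_eq_zero_iff_of_nonneg (fun i _ => sq_nonneg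
    (d.sy.D i (d.ch q .iH) z))).1 (le_antisymm z2 (Finset.sum_nonneg fun _ _ => sq_nonneg _))
  exact ⟨hk', fun i => pow_eq_zero_iff (two_ne_zero) |>.1 (z1' i (Finset.mem_univ i)),
    fun i => pow_eq_zero_iff (two_ne_zero) |>.1 (z2' i (Finset.mem_univ i))⟩

/-- The cost of `iH` vanishes where its cut-off is flat; its margin is nonnegative. -/
def OutH (L : Lc n) : Prop := EvC fun q => ∀ d : Pk n, PkOk q d → ∀ z : VV n,
  (∀ i, d.sx.D i (d.ch q .iH) z = 0) → (∀ i, d.sy.D i (d.ch q .iH) z = 0) →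
    PB 0 1 1 1 1 1 (L.FM .iH q d) z ∧ CB 0 1 1 1 1 1 (L.FC .iH q d) z

section flat

variable {E ι : Type*} [NormedAddCommGroup E] [NormedSpace ℝ E] [Fintype ι] {σ : Sl E ι}
  {W χ lam : E → ℝ} {z : E}

theorem G_flat (h : ∀ i, σ.D i χ z = 0) (f : E → ℝ) : σ.Γ χ f z = 0 := by
  unfold Sl.Γ
  exact Finset.sum_eq_zero fun i _ => Finset.sum_eq_zero fun j _ => by rw [h i]; ring

theorem HH_flat (h : ∀ i, σ.D i χ z = 0) : H168.INF.HH σ W z (fun i => σ.D i χ z) = 0 := by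
  unfold H168.INF.HH
  refine Finset.sum_eq_zero fun i _ => Finset.sum_eq_zero fun j _ => ?_
  beta_reduce
  rw [h i]; ring

theorem kH_flat (h : ∀ i, σ.D i χ z = 0) : H168.INF.kH σ W χ lam z = 0 := by
  unfold H168.INF.kH
  rw [G_flat h, HH_flat h, G_flat h]
  simp

end flat

/-- helper168's letters of `iH`. -/
theorem outH {L : Lc n} (hM : ∀ q d, L.FM .iH q d = H168.INF.MiH q d)
    (hC : ∀ q d, L.FC .iH q d = H168.INF.CiH (d.ch q .iH) q d) : OutH L := by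
  refine ((rowFn n).and (evInf.and EvC.pos)).mono ?_
  rintro q ⟨hE, hI, -, ⟨-, h0, -⟩, hM₀, -, -, -, -, hR1⟩ d h z x1 x2
  have hR := hI.R0
  obtain ⟨l1, l2⟩ := hE d h z
  have hN := h.N_ge (d.l (d.P z.1) + d.l (d.P z.2))
  have t1 := h.Θd0 hR (d.l z.1)
  have t2 := h.Θd0 hR (d.l z.2)
  have hs : 0 ≤ q.σ / q.R := (div_pos h0 hR).le
  have a1 : 0 ≤ H168.INF.lmH q d z := by
    unfold H168.INF.lmH H168.INF.hX H168.INF.hN
    have : 0 ≤ deriv d.Φ (d.l (d.P z.1) + d.l (d.P z.2)) + deriv d.Θ (d.l z.1) := by linarith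
    positivity
  have a2 : 0 ≤ H168.INF.muH q d z := by
    unfold H168.INF.muH H168.INF.hY H168.INF.hN
    have : 0 ≤ deriv d.Φ (d.l (d.P z.1) + d.l (d.P z.2)) + deriv d.Θ (d.l z.2) := by linarith
    positivity
  have F1 := l1.F_nn (d.W q)
  have F2 := l2.F_nn (d.W q)
  rw [hM, hC]
  refine ⟨⟨?_, ?_, ?_, le_rfl, ?_, ?_, le_rfl, le_rfl⟩,
    ⟨le_rfl, ?_, ?_, le_rfl, ?_, ?_, le_rfl, le_rfl⟩⟩
  · show (0 : ℝ) ≤ 1
    norm_num
  · show 0 * (1 * 1) ≤ H168.INF.lmH q d z / 6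
    linarith
  · show 0 * (1 * 1) ≤ H168.INF.muH q d z / 6
    linarith
  · show _ ≤ H168.INF.lmH q d z * d.sx.F (d.W q) z / 4 + H168.INF.lmH q d z ^ 2 / 4
    have := mul_nonneg a1 F1
    have := sq_nonneg (H168.INF.lmH q d z)
    linarith
  · show _ ≤ H168.INF.muH q d z * d.sy.F (d.W q) z / 4 + H168.INF.muH q d z ^ 2 / 4
    have := mul_nonneg a2 F2
    have := sq_nonneg (H168.INF.muH q d z)
    linarith
  · show (0 : ℝ) ≤ _
    norm_num
  · show (0 : ℝ) ≤ _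
    norm_num
  · show H168.INF.kH d.sx (d.W q) (d.ch q .iH) (H168.INF.lmH q d) z ≤ _
    rw [kH_flat x1]
    norm_num
  · show H168.INF.kH d.sy (d.W q) (d.ch q .iH) (H168.INF.muH q d) z ≤ _
    rw [kH_flat x2]
    norm_num

/-- **The payments of all pairs where `tinf > 0`.** -/
theorem payI_all {L : Lc n} (hP : ∀ k, AlI k → PbI L k) (hC : ∀ k, AlI k → CbI L k)
    (hO : OutH L) (k j : Zo) : H844.E.PayI L k j := by
  by_cases hkj : AlI k ∧ AlI j
  · obtain ⟨th, hth, hpay⟩ := payI (rowFn n) (hP j hkj.2) (hC k hkj.1)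
    refine ⟨th, hth, fun e he hle => ?_⟩
    refine ((hpay e he hle).and ((ev_out n).and hO)).mono ?_
    rintro q ⟨hp, hout, hO⟩ d h z hz c1 c2 a b
    by_cases hin : d.l₀ q + 3 * q.R ≤ d.l z.1 ∨ d.l₀ q + 3 * q.R ≤ d.l z.2
    · obtain ⟨rfl, x1, x2⟩ := hout d h z hin k c1
      obtain ⟨rfl, -, -⟩ := hout d h z hin j c2
      obtain ⟨o1, o2⟩ := hO d h z x1 x2
      exact o1.pay o2 (by norm_num) (by norm_num) zero_le_one zero_le_one zero_le_one
        zero_le_one zero_le_one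
    · push Not at hin
      exact hp d h z ⟨hz, hin.1, hin.2⟩ c1 c2 a b
  · refine ⟨fun _ => 1, smE_const one_pos, fun e _ _ => ?_⟩
    refine (ev_alI n).mono fun q hq d h z hz c1 c2 a b => ?_
    exact absurd ⟨hq d h z hz k c1, hq d h z hz j c2⟩ hkj

end Vale.Agent.P088.R2.H871.E
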