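import Vale.Agent.P088.R2.H871.E.Gf
import Vale.Agent.P088.R2.H551.RS.Inst
import Vale.Agent.P088.R2.H303.F.Uni

/-!
# P088, stage 3, EST': payments where `tinf > 0`: ellipticity, the leaves `RSn`, `RSf`
-/

open Set Filter
open scoped ContDiff Topology Matrix

noncomputable section

namespace Vale.Agent.P088.R2.H871.E

open Vale.Agent.P088.LR Vale.Agent.P088.HY
open Vale.Agent.P088.R2.H31.EP
open Vale.Agent.P088.R2.H867.EP
open Vale.Agent.P088.R2.H455.E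
open Vale.Agent.P088.R2.H551.E Vale.Agent.P088.R2.H747.SW
open Vale.Agent.P088.R2.H551.RS (GF evGF nt nt_Gf nt_NG LRS RC evRC rr2 Gf)
open Vale.Agent.P088.R2.H404.INF (InfC evInf)

variable {n : ℕ} {q : Cst} {d : Pk n} {z : VV n}

/-! ## Constants -/

/-- Constants before `c'` are constants before `R`. -/
theorem nbR {f : Cst → ℝ} (h : NB_c' f) : NB_R f := fun q => (h q.b_R).symm.trans (h q)

theorem smE_const {c : ℝ} (hc : 0 < c) : SmE fun _ => c := ⟨fun _ => rfl, fun _ => hc⟩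

/-! ## Ellipticity -/

theorem rowFn (n : ℕ) : RowFn n := by
  refine (H303.F.rowU n).mono fun q hq d h z => ?_
  have up : ∀ (σ : H961.GW.Sl (VV n) (Fin n)) (A : Fin n → ℝ),
      (∑ i, ∑ j, σ.s i j z * A i * A j) ^ 2 ≤ 2 ^ 2 * ((∑ i, A i ^ 2) * ∑ i, A i ^ 2) →
      ss σ A z ≤ 2 * ∑ i, A i ^ 2 := by
    intro σ A h1
    have h2 : 0 ≤ ∑ i, A i ^ 2 := Finset.sum_nonneg fun _ _ => sq_nonneg _
    have h3 : (∑ i, ∑ j, σ.s i j z * A i * A j) ^ 2 ≤ (2 * ∑ i, A i ^ 2) ^ 2 := by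
      refine h1.trans (le_of_eq ?_); ring
    exact (abs_le_of_sq_le_sq' h3 (by positivity)).2
  exact ⟨⟨fun A => (hq d h z A A).1.1, fun A => up _ A (hq d h z A A).2.1⟩,
    ⟨fun A => (hq d h z A A).1.2, fun A => up _ A (hq d h z A A).2.2⟩⟩

/-! ## The leaves `RSn`, `RSf` -/

/-- A function `m` between `c s nt` and `s nt`. -/
def MR (m : Cst → Pk n → VV n → ℝ) (k : Zo) : Prop := EvC fun q => ∀ d : Pk n, PkOk q d →
  ∀ z, GF q d z → d.ch q k z ≠ 0 →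
    1 / 2 * (q.σ / q.R * nt q d z) ≤ m q d z ∧ m q d z ≤ nt q d z

theorem mr_RSn (hn : 1 ≤ n) : MR (n := n) (fun q d z => q.σ / q.R * d.NG q z) .RSn := by
  refine ((evRC hn).and (EvC.litSm n)).mono ?_
  rintro q ⟨hc, ls⟩ d h z gf hz
  have h1 := sd_RSn hz (ls d h).cp
  rw [← rr2 gf] at h1
  have hp := prR_pos q.e₁
  have h2 : H710.GP.rr z ≤ prR q.e₁ + 1 := (abs_le_of_sq_le_sq' h1 (by linarith)).2
  have h3 := nt_NG hc h h2
  have h4 := gf.gr.nt0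
  have h5 := H551.RS.s_le hc
  show 1 / 2 * (q.σ / q.R * nt q d z) ≤ q.σ / q.R * d.NG q z ∧ q.σ / q.R * d.NG q z ≤ nt q d z
  rw [← h3]
  constructor
  · have := mul_pos h5.1 h4
    linarith
  · exact mul_le_of_le_one_left h4.le h5.2

theorem mr_RSf (hn : 1 ≤ n) : MR (n := n) (fun q d z => q.σ / (2 * q.R) * (deriv d.Φ (d.u0 z) +
    q.D 1 0 (d.u0 z + Real.log (prS q.e₁ (qq z)), √(qq z)))) .RSf := by
  refine ((evRC hn).and (EvC.litSm n)).mono ?_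
  rintro q ⟨hc, ls⟩ d h z gf hz
  have h1 := sd_RSf hz (ls d h).cp
  rw [← rr2 gf] at h1
  have hp := prR_pos q.e₁
  have h2 : 0 < H710.GP.rr z := by
    rcases (H710.GP.rr_nn z).lt_or_eq with h0 | h0
    · exact h0
    · rw [← h0] at h1
      nlinarith
  have h3 := nt_Gf (q := q) (d := d) h2
  have h4 := gf.gr.nt0
  have h5 := H551.RS.s_le hc
  have e1 : q.σ / (2 * q.R) = 1 / 2 * (q.σ / q.R) := by
    have := hc.inf.R0
    field_simp
  have e2 : q.σ / (2 * q.R) * (deriv d.Φ (d.u0 z) +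
      q.D 1 0 (d.u0 z + Real.log (prS q.e₁ (qq z)), √(qq z))) =
      1 / 2 * (q.σ / q.R * nt q d z) := by
    rw [e1, h3]
    show 1 / 2 * (q.σ / q.R) * (deriv d.Φ (d.u0 z) + Gf q d z) = _
    ring
  beta_reduce
  rw [e2]
  refine ⟨le_rfl, ?_⟩
  have := mul_le_of_le_one_left h4.le h5.2
  linarith

theorem RS_nI {k : Zo} (hk : RS k) : ¬Inf k := H551.RS.RS_nInf hk

/-- **A leaf `RS` pays.** -/
theorem pbI_RS (hn : 1 ≤ n) {L : Lc n} {k : Zo} (hk : RS k) {m : Cst → Pk n → VV n → ℝ}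
    (hm : MR m k) (hM : ∀ q d, Mz L q d k = MA d.sx d.sy (d.W q) (m q d) (1 / 200)) :
    PbI L k := by
  refine ⟨fun _ => 1 / 12, smE_const (by norm_num), ?_⟩
  refine (((evGF hn).and (EvC.nr n)).and ((hm.and evInf).and EvC.pos)).mono ?_
  rintro q ⟨⟨hgf, hnr⟩, ⟨hm, hI⟩, -, ⟨-, h0, -⟩, hM₀, -, -, -, -, hR1⟩ d h z hz hal
  have gf := hgf d h k hk z hal
  have hR := hI.R0
  have nr := hnr d h z (tinf_of (RS_nI hk) hal)
  obtain ⟨e1, e2⟩ := nx_near hI h nr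
  have hs : 0 < q.σ / q.R := div_pos h0 hR
  have hs1 : q.σ / q.R ≤ 1 / 64 := by
    rw [div_le_iff₀ hR]
    have := hI.σ1
    linarith
  have hN : 1 ≤ deriv d.Φ (d.u0 z) := hM₀.trans (h.N_ge _)
  have hG : deriv d.Φ (d.u0 z) ≤ nt q d z := gf.Nf ▸ gf.N1
  have hmm : 6 * (1 / 12) * (q.σ / q.R * deriv d.Φ (d.u0 z)) ≤ m q d z := by
    refine le_trans ?_ (hm d h z gf hal).1
    have := mul_le_mul_of_nonneg_left hG hs.le
    linarith
  have hF : 1 / 64 * deriv d.Φ (d.u0 z) ^ 2 ≤ nt q d z ^ 2 / 64 := by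
    have := pow_le_pow_left₀ (by linarith) hG 2
    linarith
  rw [hM, e1, e2]
  exact MA_PB (by norm_num) hs.le (by linarith) (by linarith) (by norm_num : (0 : ℝ) ≤ 1 / 64)
    (by norm_num) hmm hmm (hF.trans gf.Fx1) (hF.trans gf.Fy1) (by linarith) (by linarith)

/-- **The cost of a leaf `RS`.** -/
theorem cbI_RS (hn : 1 ≤ n) {L : Lc n} {k : Zo} (hk : RS k) {m : Cst → Pk n → VV n → ℝ}
    (hm : MR m k) (hC : ∀ e q d, coz L e q d k = coA d.sx d.sy (d.W q) (m q d) (d.ch q k) (1 / 200)) :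
    CbI L k := by
  intro ε hε
  refine ⟨fun _ => 1, smE_const one_pos, fun e _ _ => ?_⟩
  have hδ := smE_mul hε (c := 1 / 153600) (by norm_num)
  refine ((((evGF hn).and (EvC.nr n)).and ((hm.and evInf).and EvC.pos)).and
    ((ev_ZS n hn _ (nbR hδ.1)).and (rowFn n))).mono ?_
  rintro q ⟨⟨⟨hgf, hnr⟩, ⟨hm, hI⟩, -, ⟨-, h0, -⟩, hM₀, -, -, -, -, hR1⟩, hZ, hE⟩ d h z hz hal
  have gf := hgf d h k hk z hal
  have hR := hI.R0
  have nr := hnr d h z (tinf_of (RS_nI hk) hal)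
  obtain ⟨e1, e2⟩ := nx_near hI h nr
  have hs : 0 < q.σ / q.R := div_pos h0 hR
  have hN : 1 ≤ deriv d.Φ (d.u0 z) := hM₀.trans (h.N_ge _)
  have hG : deriv d.Φ (d.u0 z) ≤ nt q d z := gf.Nf ▸ gf.N1
  have hdeep : ¬d.u0 z < -(3 / 2) * (q.R / q.σ) := by
    intro hc
    have h1 := gf.ar.ut
    have h2 : d.uth q = 2 * d.l₀ q + 22 / 10 * q.R := rfl
    have h4 := (l0_bd h hR1 hI.C1).1
    have h5 : 0 < q.R / q.σ := div_pos hR h0
    linarith
  obtain ⟨z1, z2⟩ := hZ (hδ.2 q) d h z hz k hal (Or.inr hdeep)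
  obtain ⟨l1, l2⟩ := hE d h z
  have hε0 := hε.2 q
  obtain ⟨m1, m2⟩ := hm d h z gf hal
  rw [hC, e1, e2]
  refine coA_small (K := 1) (G := nt q d z) (N := deriv d.Φ (d.u0 z)) (c₂ := 1 / 64)
    (δ := 1 / 153600 * ε q) l1 l2 (by norm_num) ?_ ?_ zero_le_one (by linarith) z1 z2 hs.le
    (by linarith) le_rfl le_rfl (by positivity) (by norm_num) ?_ ?_ hε0.le (by linarith)
    (by linarith)
  · linarith
  · refine le_trans ?_ m1
    have : 0 ≤ q.σ / q.R * nt q d z := mul_nonneg hs.le (by linarith)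
    linarith
  · have := gf.Fx1
    linarith
  · have := gf.Fy1
    linarith

theorem pbI_RSn (hn : 1 ≤ n) {L : Lc n} (lr : LRS L) : PbI L .RSn :=
  pbI_RS hn (Or.inl rfl) (mr_RSn hn) fun q d => lr.Mn q d

theorem pbI_RSf (hn : 1 ≤ n) {L : Lc n} (lr : LRS L) : PbI L .RSf :=
  pbI_RS hn (Or.inr rfl) (mr_RSf hn) fun q d => lr.Mf q d

theorem cbI_RSn (hn : 1 ≤ n) {L : Lc n} (lr : LRS L) : CbI L .RSn :=
  cbI_RS hn (Or.inl rfl) (mr_RSn hn) fun _ q d => lr.Cn q d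

theorem cbI_RSf (hn : 1 ≤ n) {L : Lc n} (lr : LRS L) : CbI L .RSf :=
  cbI_RS hn (Or.inr rfl) (mr_RSf hn) fun _ q d => lr.Cf q d

end Vale.Agent.P088.R2.H871.E
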