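import Vale.Agent.P088.R2.H871.E.Zd
import Vale.Agent.P088.R2.H871.E.PayI
import Vale.Agent.P088.R2.H455.E.Lett
import Vale.Agent.P088.R2.H31.EP.Thx

/-!
# P088, stage 3, EST': payments where `tinf > 0`, the interface of one leaf

`PbI L j`: the leaf `j` pays; `CbI L k`: the cost of the leaf `k` is small; `payI`: the payment.
-/

open Set Filter
open scoped ContDiff Topology Matrix

noncomputable section

namespace Vale.Agent.P088.R2.H871.E

open Vale.Agent.P088.LR Vale.Agent.P088.HY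
open Vale.Agent.P088.R2.H31.EP
open Vale.Agent.P088.R2.H551.E
open Vale.Agent.P088.R2.H867.EP
open Vale.Agent.P088.R2.H455.E

variable {n : ℕ} {q : Cst} {d : Pk n} {z : VV n}

/-- The rates of the two slots. -/
def nx (_ : Cst) (d : Pk n) (z : VV n) : ℝ := deriv d.Φ (d.u0 z) + deriv d.Θ (d.l z.1)
def ny (_ : Cst) (d : Pk n) (z : VV n) : ℝ := deriv d.Φ (d.u0 z) + deriv d.Θ (d.l z.2)

/-- `tinf > 0`, both levels below `l₀ + 3 R`. -/
structure In3 (q : Cst) (d : Pk n) (z : VV n) : Prop where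
  i : 0 < d.tinf q z
  x : d.l z.1 < d.l₀ q + 3 * q.R
  y : d.l z.2 < d.l₀ q + 3 * q.R

/-- The payer. -/
def PbI (L : Lc n) (j : Zo) : Prop := ∃ c : Cst → ℝ, SmE c ∧ EvC fun q => ∀ d : Pk n, PkOk q d →
  ∀ z : VV n, In3 q d z → d.ch q j z ≠ 0 →
    PB (c q) (q.σ / q.R) (nx q d z) (ny q d z) (d.sx.F (d.W q) z) (d.sy.F (d.W q) z) (Mz L q d j) z

/-- The cost. -/
def CbI (L : Lc n) (k : Zo) : Prop := ∀ ε : Cst → ℝ, SmE ε → ∃ th : Cst → ℝ, SmE th ∧
  ∀ e : Cst → ℝ, SmE e → (∀ q, e q ≤ th q) → EvC fun q => ∀ d : Pk n, PkOk q d →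
    ∀ z : VV n, In3 q d z → d.ch q k z ≠ 0 →
      CB (ε q) (q.σ / q.R) (nx q d z) (ny q d z) (d.sx.F (d.W q) z) (d.sy.F (d.W q) z)
        (coz L e q d k) z

/-- Both slots have nonnegative forms (helper269's ellipticity). -/
def RowFn (n : ℕ) : Prop := EvC fun q => ∀ d : Pk n, PkOk q d → ∀ z : VV n,
  El2 d.sx z ∧ El2 d.sy z

/-- The rates are at least `M₀`. -/
theorem nx_ge (h : PkOk q d) (hR : 0 < q.R) : q.M₀ ≤ nx q d z ∧ q.M₀ ≤ ny q d z := by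
  have h1 := h.N_ge (d.u0 z)
  have h2 := h.Θd0 hR (d.l z.1)
  have h3 := h.Θd0 hR (d.l z.2)
  unfold nx ny
  constructor <;> linarith

theorem nx_N (h : PkOk q d) (hR : 0 < q.R) :
    deriv d.Φ (d.u0 z) ≤ nx q d z ∧ deriv d.Φ (d.u0 z) ≤ ny q d z := by
  have h2 := h.Θd0 hR (d.l z.1)
  have h3 := h.Θd0 hR (d.l z.2)
  unfold nx ny
  constructor <;> linarith

/-- The payment for one pair on the part `In3`. -/
def PayI (L : Lc n) (k j : Zo) : Prop := ∃ th : Cst → ℝ, SmE th ∧ ∀ e : Cst → ℝ, SmE e →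
  (∀ q, e q ≤ th q) → EvC fun q => ∀ d : Pk n, PkOk q d → ∀ z : VV n, In3 q d z →
    d.ch q k z ≠ 0 → d.ch q j z ≠ 0 → ∀ a b : VV n → ℝ,
      34 * den d q (coz L e q d k) a b z ≤ den d q (Mz L q d j) a b z

theorem smE_mul {e : Cst → ℝ} (he : SmE e) {c : ℝ} (hc : 0 < c) : SmE fun q => c * e q :=
  ⟨fun q => by simp only [he.1 q], fun q => mul_pos hc (he.2 q)⟩

/-- **The payment.** -/
theorem payI {L : Lc n} {k j : Zo} (hF : RowFn n) (hj : PbI L j) (hk : CbI L k) :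
    PayI L k j := by
  obtain ⟨c, hc, hj⟩ := hj
  obtain ⟨th, hth, hk⟩ := hk (fun q => 1 / 34 * c q) (smE_mul hc (by norm_num))
  refine ⟨th, hth, fun e he hle => ?_⟩
  refine (((hk e he hle).and hj).and (hF.and EvC.pos)).mono ?_
  rintro q ⟨⟨hk, hj⟩, hF, -, ⟨-, h0, -⟩, hM, -, -, -, -, hR⟩ d h z hz c1 c2 a b
  have hR0 : 0 < q.R := by linarith
  obtain ⟨n1, n2⟩ := nx_ge (z := z) h hR0
  obtain ⟨e1, e2⟩ := hF d h z
  exact (hj d h z hz c2).pay (hk d h z hz c1) (by norm_num) (by linarith)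
    (div_pos h0 hR0).le (by linarith) (by linarith) (e1.F_nn _) (e2.F_nn _)

end Vale.Agent.P088.R2.H871.E
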