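import Vale.Agent.P088.R2.H871.E.Reg

/-!
# P088, stage 3, EST': the derivatives of the cut-offs where `tinf > 0`
-/

open Set Filter
open scoped ContDiff Topology Matrix

noncomputable section

namespace Vale.Agent.P088.R2.H871.E

open Vale.Agent.P088.LR Vale.Agent.P088.HY
open Vale.Agent.P088.R2.H31.EP
open Vale.Agent.P088.R2.H464.Cu (mid dif rq bf)
open Vale.Agent.P088.R2.H867.EP
open Vale.Agent.P088.R2.H404.INF (InfC evInf LvG en2 en2_nonneg)

variable {n : ℕ} {q : Cst} {d : Pk n} {z : VV n}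

/-! ## One bound for all the cuts -/

theorem card_path (k : Zo) : (path k).card ≤ 7 := by cases k <;> decide

/-- The derivatives of a cut-off from a bound for the cuts which are on. -/
theorem dch_sq (h : LitSm q d) {k : Zo} {b : ℝ} (v : VV n)
    (hb : ∀ i ∈ path k, 0 < d.cv q i z → d.cv q i z < 1 →
      |fderiv ℝ (d.cv q i) z v| ≤ b * en2 v) :
    fderiv ℝ (d.ch q k) z v ^ 2 ≤ (7 * BF * (b * en2 v)) ^ 2 := by
  have h1 := ch_sq' (U := univ) Fl_PB isOpen_univ k (fun i _ => (h.cv i).contDiffOn)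
    (mem_univ z) v
  refine h1.trans ?_
  have h2 : ∀ i ∈ path k, 7 * BF ^ 2 * (H867.EP.al Fl (d.cv q) k z * on (d.cv q i z) *
      fderiv ℝ (d.cv q i) z v ^ 2) ≤ 7 * BF ^ 2 * (b * en2 v) ^ 2 := by
    intro i hi
    refine mul_le_mul_of_nonneg_left ?_ (by positivity)
    have ha : 0 ≤ H867.EP.al Fl (d.cv q) k z ∧ H867.EP.al Fl (d.cv q) k z ≤ 1 := by
      unfold H867.EP.al; split_ifs <;> norm_num
    by_cases ho : 0 < d.cv q i z ∧ d.cv q i z < 1
    · have h3 := hb i hi ho.1 ho.2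
      have h4 : fderiv ℝ (d.cv q i) z v ^ 2 ≤ (b * en2 v) ^ 2 := by
        rw [← sq_abs]
        exact pow_le_pow_left₀ (abs_nonneg _) h3 2
      have h5 : H867.EP.al Fl (d.cv q) k z * on (d.cv q i z) ≤ 1 := by
        rw [on_one ho, mul_one]; exact ha.2
      calc _ ≤ 1 * fderiv ℝ (d.cv q i) z v ^ 2 :=
            mul_le_mul_of_nonneg_right h5 (sq_nonneg _)
        _ ≤ _ := by rw [one_mul]; exact h4
    · rw [on_zero ho, mul_zero, zero_mul]
      positivity
  refine (Finset.sum_le_sum h2).trans ?_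
  rw [Finset.sum_const, nsmul_eq_mul]
  have h3 : ((path k).card : ℝ) ≤ 7 := by exact_mod_cast card_path k
  have h4 : 0 ≤ 7 * BF ^ 2 * (b * en2 v) ^ 2 := by positivity
  calc _ ≤ 7 * (7 * BF ^ 2 * (b * en2 v) ^ 2) := mul_le_mul_of_nonneg_right h3 h4
    _ = _ := by ring

theorem BF_one : 1 ≤ BF := Fl_PB.one

theorem dch_abs (h : LitSm q d) {k : Zo} {b : ℝ} (hb0 : 0 ≤ b) (v : VV n)
    (hb : ∀ i ∈ path k, 0 < d.cv q i z → d.cv q i z < 1 →
      |fderiv ℝ (d.cv q i) z v| ≤ b * en2 v) :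
    |fderiv ℝ (d.ch q k) z v| ≤ 7 * BF * (b * en2 v) := by
  have h1 := dch_sq h v hb
  have h2 := BF_one
  have h3 := en2_nonneg v
  rw [← abs_of_nonneg (by positivity : 0 ≤ 7 * BF * (b * en2 v))]
  exact sq_le_sq.1 h1

theorem en2_x (i : Fin n) : en2 ((Pi.single i 1, 0) : VV n) = 1 := by
  unfold en2
  have h1 : HY.sq (Pi.single i (1 : ℝ) : V n) = 1 := by
    unfold HY.sq
    simp [Pi.single_apply]
  have h2 : HY.sq (0 : V n) = 0 := by unfold HY.sq; simp
  rw [h1, h2]; simp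

theorem en2_y (i : Fin n) : en2 ((0, Pi.single i 1) : VV n) = 1 := by
  unfold en2
  have h1 : HY.sq (Pi.single i (1 : ℝ) : V n) = 1 := by
    unfold HY.sq
    simp [Pi.single_apply]
  have h2 : HY.sq (0 : V n) = 0 := by unfold HY.sq; simp
  rw [h1, h2]; simp

/-- The sum of the squares of the derivatives of a cut-off in both slots. -/
theorem Z_le (h : LitSm q d) {k : Zo} {b : ℝ}
    (hb : ∀ v : VV n, ∀ i ∈ path k, 0 < d.cv q i z → d.cv q i z < 1 →
      |fderiv ℝ (d.cv q i) z v| ≤ b * en2 v) :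
    ∑ i, d.sx.D i (d.ch q k) z ^ 2 ≤ n * (7 * BF * b) ^ 2 ∧
    ∑ i, d.sy.D i (d.ch q k) z ^ 2 ≤ n * (7 * BF * b) ^ 2 := by
  have key : ∀ w : Fin n → VV n, (∀ i, en2 (w i) = 1) →
      ∑ i, (1 * fderiv ℝ (d.ch q k) z (w i)) ^ 2 ≤ n * (7 * BF * b) ^ 2 := by
    intro w hw
    have h1 : ∀ i ∈ (Finset.univ : Finset (Fin n)), (1 * fderiv ℝ (d.ch q k) z (w i)) ^ 2 ≤
        (7 * BF * b) ^ 2 := by
      intro i _
      have := dch_sq h (w i) (hb (w i))
      rw [hw i, mul_one] at this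
      rwa [one_mul]
    refine (Finset.sum_le_sum h1).trans (le_of_eq ?_)
    rw [Finset.sum_const, Finset.card_univ, Fintype.card_fin, nsmul_eq_mul]
  exact ⟨key (fun i => (Pi.single i 1, 0)) en2_x, key (fun i => (0, Pi.single i 1)) en2_y⟩

/-! ## The cuts at infinity -/

/-- The leaves at infinity. -/
theorem inf_b (hI : InfC q) (h : PkOk q d) {k : Zo} (hk : Inf k) (v : VV n) :
    ∀ i ∈ path k, 0 < d.cv q i z → d.cv q i z < 1 →
      |fderiv ℝ (d.cv q i) z v| ≤ 300 / (q.κ₁ * q.R) * en2 v := by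
  intro i hi h1 h2
  have h3 : i = .inf ∨ i = .hi ∨ i = .fs := by
    rcases hk with rfl | rfl | rfl <;> cases i <;> revert hi <;> decide
  have h4 := H404.INF.on_dt hI h v (z := z) h3
  rwa [on_one ⟨h1, h2⟩, one_mul] at h4

theorem inf_b' (hI : InfC q) (h : PkOk q d) (v : VV n) (h1 : 0 < d.cv q .inf z)
    (h2 : d.cv q .inf z < 1) :
      |fderiv ℝ (d.cv q .inf) z v| ≤ 300 / (q.κ₁ * q.R) * en2 v := by
  have h4 := H404.INF.on_dt hI h v (z := z) (i := .inf) (Or.inl rfl)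
  rwa [on_one ⟨h1, h2⟩, one_mul] at h4

/-! ## Far pairs: only the cut `rs` can be on -/

/-- The cuts near the diagonal are off at distance `κ₁ R / 2`. -/
theorem EvC.far_off (n : ℕ) : EvC fun q => ∀ d : Pk n, PkOk q d → ∀ z : VV n,
    (q.κ₁ * q.R) ^ 2 / 4 ≤ qq z → 1 ≤ d.cv q .r z ∧ 1 ≤ d.cv q .far z ∧ 1 ≤ d.cv q .rS z := by
  refine (EvC.rads.and ((EvC.cpOk n).and (EvC.rq n))).mono ?_
  rintro q ⟨⟨r1, r2, r3⟩, hcp, hrq⟩ d h z hz
  have hP := hcp d h
  have hr : (q.κ₁ * q.R) ^ 2 / 8 ≤ 2 * rq (gi d.s₁) z := by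
    have := ((hrq d h).2 z).2.1
    linarith
  refine ⟨?_, ?_, ?_⟩
  · by_contra hc
    have hc' : H932.EP.tauR (d.cp q).c₀ (rq (gi d.s₁)) z < 1 := not_le.1 hc
    have h1 := tauR_le hP.c₀ hc'.le
    have h2 : (d.cp q).c₀ = q.c₀ := rfl
    rw [h2] at h1
    linarith
  · by_contra hc
    have hc' : tauD (d.cp q).r₁ (d.cp q).r₂ (rq (gi d.s₁)) z < 1 := not_le.1 hc
    have h1 := tauD_le hP.r₁ hP.r₂ hc'.le
    have h2 : (d.cp q).r₂ = 2 * q.p₁ := rfl
    rw [h2] at h1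
    linarith
  · by_contra hc
    have hc' : tauD (d.cp q).q₁ (d.cp q).q₂ (rq (gi d.s₁)) z < 1 := not_le.1 hc
    have h1 := tauD_le hP.q₁ hP.q₂ hc'.le
    have h2 : (d.cp q).q₂ = prR q.e₁ + 1 := rfl
    rw [h2] at h1
    linarith

/-- A bound of the derivative of the step. -/
theorem st_bd : ∃ C : ℝ, 1 ≤ C ∧ ∀ x, |deriv Real.smoothTransition x| ≤ C := by
  have h1 : Continuous (deriv Real.smoothTransition) :=
    (contDiff_infty_iff_deriv.1 (Real.smoothTransition.contDiff (n := (⊤ : ℕ∞)))).2.continuous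
  obtain ⟨C, hC⟩ := isCompact_Icc.bddAbove_image (f := fun x => |deriv Real.smoothTransition x|)
    (K := Icc (0 : ℝ) 1) h1.abs.continuousOn
  refine ⟨max C 1, le_max_right _ _, fun x => ?_⟩
  by_cases hx : 0 ≤ x ∧ x ≤ 1
  · exact (hC ⟨x, hx, rfl⟩).trans (le_max_left _ _)
  · have h2 : x ≤ 0 ∨ 1 ≤ x := by
      by_contra hc
      push Not at hc
      exact hx ⟨hc.1.le, hc.2.le⟩
    rw [H404.INF.deriv_st0 h2, abs_zero]
    exact zero_le_one.trans (le_max_right _ _)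

def cSt : ℝ := st_bd.choose

theorem cSt_one : 1 ≤ cSt := st_bd.choose_spec.1

theorem cSt_bd (x : ℝ) : |deriv Real.smoothTransition x| ≤ cSt := st_bd.choose_spec.2 x

/-- The derivative of `VS`. -/
theorem dVS (h : PkOk q d) (hM : 1 ≤ q.M₀) (hL : 0 ≤ q.L) (u : ℝ) :
    |deriv (d.VS q) u| ≤ cSt * (q.L + 3) := by
  have hN : ∀ u, 0 < deriv d.Φ u := fun u => h.N_pos hM u
  have hK : ∀ u, |deriv (deriv d.Φ) u / deriv d.Φ u| ≤ q.L + 1 / 20 := fun u => by
    rw [abs_of_pos (div_pos (h.top.k0 u) (hN u)), div_le_iff₀ (hN u)]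
    exact h.top.k2 u
  have d1 : HasDerivAt (fun u => Real.log (deriv d.Φ u) - u - Real.log q.nm)
      (deriv (deriv d.Φ) u / deriv d.Φ u - 1) u :=
    (((h.Φ's.differentiable (by simp) u).hasDerivAt.log (hN u).ne').sub (hasDerivAt_id u)).sub_const _
  have d2 : HasDerivAt (fun u => u - d.uth q) 1 u := (hasDerivAt_id u).sub_const _
  have hs : Differentiable ℝ Real.smoothTransition :=
    (Real.smoothTransition.contDiff (n := (⊤ : ℕ∞))).differentiable (by simp)
  have d3 := (hs (Real.log (deriv d.Φ u) - u - Real.log q.nm)).hasDerivAt.comp u d1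
  have d4 := (hs (u - d.uth q)).hasDerivAt.comp u d2
  have d5 : HasDerivAt (d.VS q) _ u := d3.mul d4
  rw [d5.deriv]
  simp only [Function.comp_apply, mul_one]
  have c1 := cSt_bd (Real.log (deriv d.Φ u) - u - Real.log q.nm)
  have c2 := cSt_bd (u - d.uth q)
  have s1 := Real.smoothTransition.nonneg (Real.log (deriv d.Φ u) - u - Real.log q.nm)
  have s2 := Real.smoothTransition.le_one (Real.log (deriv d.Φ u) - u - Real.log q.nm)
  have s3 := Real.smoothTransition.nonneg (u - d.uth q)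
  have s4 := Real.smoothTransition.le_one (u - d.uth q)
  have c0 : 0 ≤ cSt := zero_le_one.trans cSt_one
  have k1 : |deriv (deriv d.Φ) u / deriv d.Φ u - 1| ≤ q.L + 2 := by
    have := abs_le.1 (hK u)
    rw [abs_le]
    constructor <;> linarith
  refine (abs_add_le _ _).trans ?_
  rw [abs_mul, abs_mul, abs_mul, abs_of_nonneg s3, abs_of_nonneg s1]
  have e1 : |deriv Real.smoothTransition (Real.log (deriv d.Φ u) - u - Real.log q.nm)| *
      |deriv (deriv d.Φ) u / deriv d.Φ u - 1| * Real.smoothTransition (u - d.uth q) ≤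
      cSt * (q.L + 2) := by
    have := mul_le_mul c1 k1 (abs_nonneg _) c0
    calc _ ≤ cSt * (q.L + 2) * 1 := mul_le_mul this s4 s3 (by positivity)
      _ = _ := mul_one _
  have e2 : Real.smoothTransition (Real.log (deriv d.Φ u) - u - Real.log q.nm) *
      |deriv Real.smoothTransition (u - d.uth q)| ≤ cSt := by
    calc _ ≤ 1 * cSt := mul_le_mul s2 c2 (abs_nonneg _) zero_le_one
      _ = _ := one_mul _
  linarith

end Vale.Agent.P088.R2.H871.E
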