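import Vale.Agent.P088.R2.H871.E.Lay

/-!
# P088, stage 3, EST': dead leaves on the layers of infinity

Where `tinf > 0`, a leaf which is not at infinity and alive is one of
`RSf`, `Af` with `|x - y| ≥ κ₁ R / 2`; `z0`, `A1`, `A2`, `Af` with `u0 < -(3/2) R / σ`;
`RSn`, `RSf` with `u0 > 2 l₀ + 4.6 R`.
-/

open Set Filter
open scoped ContDiff Topology Matrix

noncomputable section

namespace Vale.Agent.P088.R2.H871.E

open Vale.Agent.P088.LR Vale.Agent.P088.HY
open Vale.Agent.P088.R2.H31.EP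
open Vale.Agent.P088.R2.H464.Cu (mid dif rq)
open Vale.Agent.P088.R2.H867.EP

variable {n : ℕ} {q : Cst} {d : Pk n} {z : VV n}

/-! ## Far pairs -/

/-- **(D1)** At distance `≥ κ₁ R / 2` only `RSf`, `Af` and the zones at infinity are alive. -/
theorem EvC.far (n : ℕ) : EvC fun q => ∀ d : Pk n, PkOk q d → ∀ z : VV n,
    (q.κ₁ * q.R) ^ 2 / 4 ≤ qq z → ∀ k, d.ch q k z ≠ 0 → Inf k ∨ k = .RSf ∨ k = .Af := by
  refine (EvC.rads.and ((EvC.cpOk n).and (EvC.rq n))).mono ?_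
  rintro q ⟨⟨r1, r2, r3⟩, hcp, hrq⟩ d h z hz k hk
  have hP := hcp d h
  obtain ⟨-, hq⟩ := hrq d h
  have hr : (q.κ₁ * q.R) ^ 2 / 8 ≤ 2 * rq (gi d.s₁) z := by
    have := (hq z).2.1
    linarith
  rcases zo_cases k with hi | hs | hn | ho
  · exact Or.inl hi
  · rcases hs with rfl | rfl
    · have h1 := alive_RSn (fun i => Fl_pair i) hP hk
      have h2 : (d.cp q).q₂ = prR q.e₁ + 1 := rfl
      rw [h2] at h1
      linarith
    · exact Or.inr (Or.inl rfl)
  · have h1 := alive_r (fun i => Fl_pair i) hP hk hn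
    have h2 : (d.cp q).c₀ = q.c₀ := rfl
    rw [h2] at h1
    linarith
  · by_cases hA : k = .Af
    · exact Or.inr (Or.inr hA)
    · have h1 := alive_nf (fun i => Fl_pair i) hP hk ho hA
      have h2 : (d.cp q).r₂ = 2 * q.p₁ := rfl
      rw [h2] at h1
      linarith

/-! ## Deep pairs -/

/-- The gradient of the flat weight. -/
theorem fd_W0 (hΦ : Differentiable ℝ d.Φ)
    (hS : Differentiable ℝ (prS q.e₁)) (hl : Differentiable ℝ d.l) (v : VV n) :
    fderiv ℝ (d.W0 q) z v = deriv d.Φ (d.u0 z) * (fderiv ℝ d.l z.1 v.1 + fderiv ℝ d.l z.2 v.2) +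
      Real.exp (d.u0 z) * (prS q.e₁ (qq z) * (fderiv ℝ d.l z.1 v.1 + fderiv ℝ d.l z.2 v.2) +
        deriv (prS q.e₁) (qq z) * ∑ j, 2 * (z.1 j - z.2 j) * (v.1 j - v.2 j)) := by
  have f1 : HasFDerivAt d.u0 ((fderiv ℝ d.l z.1).comp (ContinuousLinearMap.fst ℝ (V n) (V n)) +
      (fderiv ℝ d.l z.2).comp (ContinuousLinearMap.snd ℝ (V n) (V n))) z :=
    ((hl z.1).hasFDerivAt.comp z hasFDerivAt_fst).add
      ((hl z.2).hasFDerivAt.comp z hasFDerivAt_snd)
  have fq : HasFDerivAt (qq : VV n → ℝ) (∑ j, (2 * (z.1 j - z.2 j)) •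
      ((ContinuousLinearMap.proj j : V n →L[ℝ] ℝ).comp
        (ContinuousLinearMap.fst ℝ (V n) (V n) - ContinuousLinearMap.snd ℝ (V n) (V n)))) z := by
    have e : (qq : VV n → ℝ) = fun z => ∑ j, (z.1 j - z.2 j) ^ 2 := rfl
    rw [e]
    refine HasFDerivAt.fun_sum fun j _ => ?_
    have g1 : HasFDerivAt (fun z : VV n => z.1 j - z.2 j)
        ((ContinuousLinearMap.proj j : V n →L[ℝ] ℝ).comp
        (ContinuousLinearMap.fst ℝ (V n) (V n) - ContinuousLinearMap.snd ℝ (V n) (V n))) z := by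
      exact ((ContinuousLinearMap.proj j : V n →L[ℝ] ℝ).comp
        (ContinuousLinearMap.fst ℝ (V n) (V n) -
          ContinuousLinearMap.snd ℝ (V n) (V n))).hasFDerivAt
    have g2 := g1.pow 2
    refine g2.congr_fderiv ?_
    ext v <;> simp
  have fΦ := (hΦ (d.u0 z)).hasDerivAt.comp_hasFDerivAt z f1
  have fe := (Real.hasDerivAt_exp (d.u0 z)).comp_hasFDerivAt z f1
  have fS := (hS (qq z)).hasDerivAt.comp_hasFDerivAt z fq
  have fW : HasFDerivAt (d.W0 q) _ z := fΦ.add (fe.mul fS)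
  rw [fW.fderiv]
  simp only [add_apply, smul_apply,
    ContinuousLinearMap.comp_apply, ContinuousLinearMap.coe_fst', ContinuousLinearMap.coe_snd',
    sum_apply, smul_eq_mul, Function.comp,
    sub_apply, ContinuousLinearMap.proj_apply, Pi.sub_apply]
  ring

theorem dx_W0 (hΦ : Differentiable ℝ d.Φ)
    (hS : Differentiable ℝ (prS q.e₁)) (hl : Differentiable ℝ d.l) (i : Fin n) :
    dx i (d.W0 q) z = deriv d.Φ (d.u0 z) * pd i d.l z.1 + Real.exp (d.u0 z) *
      (prS q.e₁ (qq z) * pd i d.l z.1 + deriv (prS q.e₁) (qq z) * (2 * (z.1 i - z.2 i))) := by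
  unfold dx pd
  rw [fd_W0 hΦ hS hl]
  have e2 : ∑ j, 2 * (z.1 j - z.2 j) * ((Pi.single i (1 : ℝ) : V n) j - (0 : V n) j) =
      2 * (z.1 i - z.2 i) := by
    simp [Pi.single_apply]
  rw [e2]
  simp

theorem dy_W0 (hΦ : Differentiable ℝ d.Φ)
    (hS : Differentiable ℝ (prS q.e₁)) (hl : Differentiable ℝ d.l) (i : Fin n) :
    dy i (d.W0 q) z = deriv d.Φ (d.u0 z) * pd i d.l z.2 + Real.exp (d.u0 z) *
      (prS q.e₁ (qq z) * pd i d.l z.2 + deriv (prS q.e₁) (qq z) * (2 * (z.2 i - z.1 i))) := by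
  unfold dy pd
  rw [fd_W0 hΦ hS hl]
  have e2 : ∑ j, 2 * (z.1 j - z.2 j) * ((0 : V n) j - (Pi.single i (1 : ℝ) : V n) j) =
      2 * (z.2 i - z.1 i) := by
    simp [Pi.single_apply]
    ring
  rw [e2]
  simp

/-- The lower bound of `N g + E (S g + S' 2 v)`. -/
theorem comb_low {g v : V n} {N E S S' Q : ℝ} (hN : 1 ≤ N) (hE : 0 ≤ E) (hS : 0 ≤ S)
    (hQ : 0 ≤ Q) (hg : 24 / 25 ≤ √(HY.sq g)) (hg' : √(HY.sq g) ≤ 101 / 100)
    (hv : √(HY.sq v) ≤ Q) (hs : E * (S + |S'| * (2 * Q)) ≤ 1 / 1000) :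
    (9 / 10 * (N + E * S)) ^ 2 ≤ ∑ i, (N * g i + E * (S * g i + S' * (2 * v i))) ^ 2 := by
  have e1 : ∑ i, (N * g i + E * (S * g i + S' * (2 * v i))) ^ 2 =
      HY.sq (N • g + E • (S • g + (S' * 2) • v)) := by
    unfold HY.sq
    refine Finset.sum_congr rfl fun i _ => ?_
    simp only [Pi.add_apply, Pi.smul_apply, smul_eq_mul]
    ring
  have h1 : N • g = (N • g + E • (S • g + (S' * 2) • v)) - E • (S • g + (S' * 2) • v) := by abel
  have h2 := H475.en_sub (N • g + E • (S • g + (S' * 2) • v)) (E • (S • g + (S' * 2) • v))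
  rw [← h1, H475.en_smul, H475.en_smul, abs_of_nonneg (zero_le_one.trans hN),
    abs_of_nonneg hE] at h2
  have h3 := H475.en_add (S • g) ((S' * 2) • v)
  rw [H475.en_smul, H475.en_smul, abs_of_nonneg hS, abs_mul, abs_two] at h3
  have h4 : |S'| * 2 * √(HY.sq v) ≤ |S'| * (2 * Q) := by
    have := mul_le_mul_of_nonneg_left hv (mul_nonneg (abs_nonneg S') zero_le_two)
    linarith
  have h5 : S * √(HY.sq g) ≤ S * (101 / 100) := mul_le_mul_of_nonneg_left hg' hS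
  have h6 : E * √(HY.sq (S • g + (S' * 2) • v)) ≤ 1 / 900 := by
    have h7 : √(HY.sq (S • g + (S' * 2) • v)) ≤ 101 / 100 * (S + |S'| * (2 * Q)) := by
      have h8 : 0 ≤ |S'| * (2 * Q) := by positivity
      linarith
    have := mul_le_mul_of_nonneg_left h7 hE
    linarith
  have h7 : 0 ≤ E * (|S'| * (2 * Q)) := by positivity
  have h8 : E * S ≤ 1 / 1000 := by linarith
  have h9 : 0 ≤ E * S := by positivity
  have h10 : 9 / 10 * (N + E * S) ≤ √(HY.sq (N • g + E • (S • g + (S' * 2) • v))) := by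
    nlinarith
  rw [e1, ← Real.sq_sqrt (H475.sq0 (N • g + E • (S • g + (S' * 2) • v)))]
  exact pow_le_pow_left₀ (by linarith) h10 2

/-- The stiff part is tiny at deep pairs. -/
theorem EvC.tiny : EvC fun q => ∀ s ∈ Icc (0 : ℝ) (8 * q.p₁ ^ 2),
    Real.exp (-(q.R / q.σ)) * (|prS q.e₁ s| + |deriv (prS q.e₁) s| * (6 * q.p₁)) ≤ 1 / 1000 := by
  have key : EvC fun q => 0 < q.σ → H509.Rad.Ok q.e₁ rp → ∀ s ∈ Icc (0 : ℝ) (8 * q.p₁ ^ 2),
      Real.exp (-(q.R / q.σ)) * (|prS q.e₁ s| + |deriv (prS q.e₁) s| * (6 * q.p₁)) ≤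
        1 / 1000 := by
    refine EvC.at_R (fun q t => 0 < q.σ → H509.Rad.Ok q.e₁ rp → ∀ s ∈ Icc (0 : ℝ) (8 * q.p₁ ^ 2),
      Real.exp (-(t / q.σ)) * (|prS q.e₁ s| + |deriv (prS q.e₁) s| * (6 * q.p₁)) ≤
        1 / 1000) fun q => ?_
    by_cases h : 0 < q.σ ∧ H509.Rad.Ok q.e₁ rp
    · obtain ⟨h0, hr⟩ := h
      have hs : ContDiff ℝ ∞ (prS q.e₁) := hr.pp.contDiff_Ph
      have hc : ContinuousOn (fun s => |prS q.e₁ s| + |deriv (prS q.e₁) s| * (6 * q.p₁))
          (Icc (0 : ℝ) (8 * q.p₁ ^ 2)) := by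
        have h1 := hs.continuous
        have h2 := (contDiff_infty_iff_deriv.1 hs).2.continuous
        exact (h1.abs.add (h2.abs.mul continuous_const)).continuousOn
      obtain ⟨C, hC⟩ := (isCompact_Icc.bddAbove_image hc)
      have hlim : Tendsto (fun t : ℝ => Real.exp (-(t / q.σ)) * |C|) atTop (𝓝 (0 * |C|)) :=
        (Real.tendsto_exp_neg_atTop_nhds_zero.comp (tendsto_id.atTop_div_const h0)).mul_const _
      rw [zero_mul] at hlim
      filter_upwards [hlim.eventually_le_const (by norm_num : (0 : ℝ) < 1 / 1000)] with t ht _ _ s hs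
      refine le_trans ?_ ht
      refine mul_le_mul_of_nonneg_left ?_ (Real.exp_pos _).le
      exact (hC ⟨s, hs, rfl⟩).trans (le_abs_self C)
    · exact Eventually.of_forall fun _ a b => absurd ⟨a, b⟩ h
  exact ((EvC.pos.and EvC.rad).and key).mono fun q hq => hq.2 hq.1.1.2.1.2.1 hq.1.2

/-! ## Near pairs -/

/-- What is known where a leaf which is not at infinity is alive. -/
structure Nr (q : Cst) (d : Pk n) (z : VV n) : Prop where
  ok : H404.INF.NearOk q.κ₁ q.σ q.R (d.l₀ q) (H475.gg n q.σ) d.l z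
  g1 : (24 / 25) ^ 2 ≤ ∑ i, pd i d.l z.1 ^ 2
  g2 : (24 / 25) ^ 2 ≤ ∑ i, pd i d.l z.2 ^ 2
  g1' : ∑ i, pd i d.l z.1 ^ 2 ≤ (101 / 100) ^ 2
  g2' : ∑ i, pd i d.l z.2 ^ 2 ≤ (101 / 100) ^ 2

theorem κ_le : EvC fun q => q.κ₁ ≤ 1 / 50 :=
  EvC.at_κ₁ (fun _ t => t ≤ 1 / 50) fun _ => sml_le (by norm_num)

theorem σ_le : EvC fun q => q.σ ≤ 1 / 5000 :=
  EvC.at_σ (fun _ t => t ≤ 1 / 5000) fun _ => sml_le (by norm_num)

theorem EvC.nr (n : ℕ) : EvC fun q => ∀ d : Pk n, PkOk q d → ∀ z : VV n, d.tinf q z < 1 →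
    Nr q d z := by
  refine ((EvC.pos.and (EvC.lvG n)).and (κ_le.and σ_le)).mono ?_
  rintro q ⟨⟨⟨-, ⟨a1, a2, -⟩, -, -, -, -, -, a4⟩, hl⟩, b1, b2⟩ d h z hz
  have hL := hl d h
  rw [tinf_eq] at hz
  have hN := H404.INF.near_alive hL a1 b1 hz
  have hR : 0 < q.R := hL.R0
  have lo : ∀ x : V n, 2 / 25 ≤ √(HY.sq (H475.wv n q.σ (q.R⁻¹ • x))) →
      (24 / 25) ^ 2 ≤ ∑ i, pd i d.l x ^ 2 := fun x hx => by
    rw [h.lev.lit]
    exact H475.grad_levG_ge a2 b2 hR hx
  have up : ∀ x : V n, H475.gg n q.σ (q.R⁻¹ • x) ≤ 12 / 5 →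
      ∑ i, pd i d.l x ^ 2 ≤ (101 / 100) ^ 2 := fun x hx => by
    rw [h.lev.lit]
    refine (H475.grad_levG_le' a2 b2 hR ?_).trans (by linarith)
    rw [H475.levG_eq]
    nlinarith
  exact ⟨hN, lo _ hN.w1, lo _ hN.w2, up _ hN.g1, up _ hN.g2⟩

/-- A leaf which is not at infinity. -/
theorem tinf_of {k : Zo} (hk : ¬Inf k) (h : d.ch q k z ≠ 0) : d.tinf q z < 1 :=
  alive_fin (fun i => Fl_pair i) h hk

/-- The variable of a tube. -/
theorem tube_of {S t N : ℝ} (ht : 0 < t) (hN : 0 < N) (h : (4 * S / (t * N) ^ 2 - 1) / 3 < 1) :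
    S < (t * N) ^ 2 := by
  have h1 : 4 * S / (t * N) ^ 2 < 4 := by linarith
  rw [div_lt_iff₀ (by positivity)] at h1
  linarith

/-- **(D2)** At deep pairs only `z0`, `A1`, `A2`, `Af` and zones at infinity are alive. -/
theorem EvC.deep (n : ℕ) : EvC fun q => ∀ d : Pk n, PkOk q d → ∀ z : VV n,
    d.u0 z < -(3 / 2) * (q.R / q.σ) → ∀ k, ¬Inf k → d.ch q k z ≠ 0 →
      k = .z0 ∨ k = .A1 ∨ k = .A2 ∨ k = .Af := by
  have hT : EvC fun q => q.rT ≤ 1 / 10 :=
    EvC.at_rT (fun _ t => t ≤ 1 / 10) fun _ => sml_le (by norm_num)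
  have hA : EvC fun q => q.aC ≤ 1 := EvC.at_aC (fun _ t => t ≤ 1) fun _ => sml_le one_pos
  refine (((EvC.pos.and (EvC.nr n)).and ((EvC.cpOk n).and (EvC.rq n))).and
    ((EvC.tiny.and EvC.rad).and (hT.and (hA.and σ_le)))).mono ?_
  rintro q ⟨⟨⟨⟨⟨-, -, -, -, a1, -, -, a2, -⟩, ⟨a3, a4, -⟩, a5, -, -, -, a6, a7⟩, hnr⟩, hcp, hrq⟩,
    ⟨hty, hr⟩, hT, hA, hσ⟩ d h z hz k hk hal
  have hR : 0 < q.R := by linarith
  have hP := hcp d h
  have hti := tinf_of hk hal
  have nr := hnr d h z hti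
  obtain ⟨l1, l2⟩ := l0_bd h a7 a6
  have hRσ : 0 < q.R / q.σ := by positivity
  have hu := abs_le.1 (u_u0 h z)
  have hS : Differentiable ℝ (prS q.e₁) := hr.pp.contDiff_Ph.differentiable (by simp)
  have hΦ : Differentiable ℝ d.Φ := h.Φs.differentiable (by simp)
  have hl : Differentiable ℝ d.l := h.l_sm.differentiable (by simp)
  have hN : 1 ≤ deriv d.Φ (d.u0 z) := a5.trans (h.N_ge _)
  have hp1 : 1 ≤ q.p₁ := Cst.p₁_ge hr
  -- `RS` and the leaves beyond `e0` are dead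
  have huneg : d.u q z < 1 / 4 := by
    have : -(3 / 2) * (q.R / q.σ) < 0 := by linarith
    linarith
  -- the tubes are dead
  have tub : Off k → k ≠ .Af → (9 / 10 * d.NG q z) ^ 2 ≤ ∑ i, dx i (d.W0 q) z ^ 2 ∧
      (9 / 10 * d.NG q z) ^ 2 ≤ ∑ i, dy i (d.W0 q) z ^ 2 := by
    intro ho hA
    have h1 := alive_nf (fun i => Fl_pair i) hP hal ho hA
    have h2 : (d.cp q).r₂ = 2 * q.p₁ := rfl
    rw [h2] at h1
    have h3 := ((hrq d h).2 z).2.1
    have hq : qq z ≤ 8 * q.p₁ ^ 2 := by linarith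
    have hq0 := qq_nonneg z
    have hty' := hty (qq z) ⟨hq0, hq⟩
    have hs0 := PkOk.prS_nonneg (q := q) hr hq0
    rw [abs_of_nonneg hs0] at hty'
    have hsq : √(HY.sq (z.1 - z.2)) ≤ 3 * q.p₁ := by
      refine Real.sqrt_le_iff.2 ⟨by linarith, ?_⟩
      have : HY.sq (z.1 - z.2) = qq z := rfl
      rw [this]
      nlinarith
    have hE : Real.exp (d.u0 z) ≤ Real.exp (-(q.R / q.σ)) := Real.exp_le_exp.2 (by linarith)
    have hsm : Real.exp (d.u0 z) * (prS q.e₁ (qq z) + |deriv (prS q.e₁) (qq z)| *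
        (2 * (3 * q.p₁))) ≤ 1 / 1000 := by
      have h5 : (0 : ℝ) ≤ prS q.e₁ (qq z) + |deriv (prS q.e₁) (qq z)| * (6 * q.p₁) := by
        have := abs_nonneg (deriv (prS q.e₁) (qq z))
        positivity
      have h6 := mul_le_mul_of_nonneg_right hE h5
      calc _ = Real.exp (d.u0 z) * (prS q.e₁ (qq z) + |deriv (prS q.e₁) (qq z)| *
            (6 * q.p₁)) := by ring
        _ ≤ _ := h6.trans hty'
    have sq_lo : ∀ {v : V n}, (24 / 25) ^ 2 ≤ ∑ i, v i ^ 2 → 24 / 25 ≤ √(HY.sq v) :=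
      fun hv => Real.le_sqrt_of_sq_le hv
    have sq_up : ∀ {v : V n}, ∑ i, v i ^ 2 ≤ (101 / 100) ^ 2 → √(HY.sq v) ≤ 101 / 100 :=
      fun hv => Real.sqrt_le_iff.2 ⟨by norm_num, hv⟩
    constructor
    · have c := comb_low (g := fun i => pd i d.l z.1) (v := z.1 - z.2) hN (Real.exp_pos _).le hs0
        (by linarith) (sq_lo nr.g1) (sq_up nr.g1') hsq hsm
      refine c.trans (le_of_eq (Finset.sum_congr rfl fun i _ => ?_))
      rw [dx_W0 hΦ hS hl]
      simp only [Pi.sub_apply]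
    · have hsq' : √(HY.sq (z.2 - z.1)) ≤ 3 * q.p₁ := by
        rw [H404.INF.sq_swap]; exact hsq
      have c := comb_low (g := fun i => pd i d.l z.2) (v := z.2 - z.1) hN (Real.exp_pos _).le hs0
        (by linarith) (sq_lo nr.g2) (sq_up nr.g2') hsq' hsm
      refine c.trans (le_of_eq (Finset.sum_congr rfl fun i _ => ?_))
      rw [dy_W0 hΦ hS hl]
      simp only [Pi.sub_apply]
  have hNG : 0 < d.NG q z := by
    have := h.NG_ge hr z
    linarith
  have kill : ∀ {S t : ℝ}, 0 < t → t ≤ 4 / 10 → (9 / 10 * d.NG q z) ^ 2 ≤ S →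
      (4 * S / (t * d.NG q z) ^ 2 - 1) / 3 < 1 → False := by
    intro S t ht ht' hS hlt
    have h1 := tube_of ht hNG hlt
    have h2 : (t * d.NG q z) ^ 2 ≤ (9 / 10 * d.NG q z) ^ 2 := by
      refine pow_le_pow_left₀ (by positivity) ?_ 2
      exact mul_le_mul_of_nonneg_right (by linarith) hNG.le
    linarith
  rcases zo_cases k with hi | hs | hn | ho
  · exact absurd hi hk
  · exfalso
    have h1 := alive_RS (fun i => Fl_pair i) hal hs
    have h2 : (d.cp q).VS (d.u q z) = d.VS q (d.u q z) := rfl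
    rw [h2] at h1
    have h3 : Real.smoothTransition (d.u q z - d.uth q) = 0 := by
      refine Real.smoothTransition.zero_of_nonpos ?_
      have : d.uth q = 2 * d.l₀ q + 22 / 10 * q.R := rfl
      rw [this]
      linarith
    unfold Pk.VS at h1
    rw [h3, mul_zero] at h1
    exact lt_irrefl _ h1
  · by_cases h0 : k = .z0
    · exact Or.inl h0
    · exfalso
      have h1 := alive_e0 (fun i => Fl_pair i) hP hal hn h0
      have h2 : (d.cp q).u₀ = -Real.log q.aC := rfl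
      have h3 : (d.cp q).V₀ (d.u q z) = d.u q z - Real.log (deriv d.Φ (d.u q z)) := rfl
      rw [h2, h3] at h1
      have h4 : Real.log q.aC ≤ 0 := Real.log_nonpos a1.le hA
      have h5 : 0 ≤ Real.log (deriv d.Φ (d.u q z)) := Real.log_nonneg (a5.trans (h.N_ge _))
      have h6 : 1 ≤ q.R / q.σ := by
        rw [le_div_iff₀ a4]
        linarith
      linarith
  · rcases ho with rfl | rfl | rfl | rfl | rfl | rfl | rfl
    · exact absurd (((show Alive Fl (d.cv q) _ z from hal).side (fun i => Fl_pair i) (i := .T1)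
        (by decide)).2 (by decide))
        (fun hc => kill a2 (by linarith) (tub (by unfold Off; decide) (by decide)).1 hc)
    · exact absurd (((show Alive Fl (d.cv q) _ z from hal).side (fun i => Fl_pair i) (i := .T2)
        (by decide)).2 (by decide))
        (fun hc => kill a2 (by linarith) (tub (by unfold Off; decide) (by decide)).2 hc)
    · exact Or.inr (Or.inl rfl)
    · exact absurd (((show Alive Fl (d.cv q) _ z from hal).side (fun i => Fl_pair i) (i := .P1)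
        (by decide)).2 (by decide))
        (fun hc => kill (by linarith : 0 < 4 * q.rT) (by linarith)
          (tub (by unfold Off; decide) (by decide)).1 hc)
    · exact absurd (((show Alive Fl (d.cv q) _ z from hal).side (fun i => Fl_pair i) (i := .P2)
        (by decide)).2 (by decide))
        (fun hc => kill (by linarith : 0 < 4 * q.rT) (by linarith)
          (tub (by unfold Off; decide) (by decide)).2 hc)
    · exact Or.inr (Or.inr (Or.inl rfl))
    · exact Or.inr (Or.inr (Or.inr rfl))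

/-- **(D2')** At deep near pairs only `iS` of the zones at infinity is alive. -/
theorem EvC.deepI (n : ℕ) : EvC fun q => ∀ d : Pk n, PkOk q d → ∀ z : VV n,
    d.u0 z < -(3 / 2) * (q.R / q.σ) → d.tinf q z < 1 → ∀ k, Inf k → d.ch q k z ≠ 0 → k = .iS := by
  refine ((EvC.pos.and (EvC.lvG n)).and ((EvC.nr n).and (κ_le.and σ_le))).mono ?_
  rintro q ⟨⟨⟨-, ⟨a1, a2, -⟩, -, -, -, -, -, a4⟩, hl⟩, hnr, b1, b2⟩ d h z hz hti k hk hal
  have hL := hl d h
  have hR := hL.R0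
  have nr := hnr d h z hti
  have hRσ : 0 < q.R / q.σ := by positivity
  rcases hk with rfl | rfl | rfl
  · exfalso
    have h1 : 0 < d.thi q z := alive_iH (fun i => Fl_pair i) hal
    rw [thi_eq] at h1
    rw [tinf_eq] at hti
    have h2 := H404.INF.near_high hL a1 b1 hti h1
    have h3 : d.u0 z = d.l z.1 + d.l z.2 := rfl
    have := hL.l0
    linarith
  · exfalso
    have h1 : 0 < d.tfs q z := (alive_iF (fun i => Fl_pair i) hal).2
    rw [tfs_eq] at h1
    have h2 := H404.INF.mul_back a2 hR (H404.INF.tfs_pos h1)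
    have h3 : d.u0 z = d.l z.1 + d.l z.2 := rfl
    have h4 := H404.INF.rt_le hR (HY.sq (z.1 - z.2)) (H475.sq0 _)
    have h5 := nr.ok.q
    have h6 : 5000 * q.R ≤ q.R / q.σ := by
      rw [le_div_iff₀ a2]
      nlinarith
    nlinarith
  · rfl

/-- **(D3)** At high near pairs only `RSn`, `RSf`, `iH` are alive. -/
theorem EvC.high (n : ℕ) : EvC fun q => ∀ d : Pk n, PkOk q d → ∀ z : VV n,
    2 * d.l₀ q + 91 / 20 * q.R ≤ d.u0 z → ∀ k, ¬Inf k → d.ch q k z ≠ 0 → RS k := by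
  refine ((EvC.top n).and (EvC.nr n)).mono ?_
  rintro q ⟨htop, hnr⟩ d h z hz k hk hal
  have nr := hnr d h z (tinf_of hk hal)
  have hup := nr.ok.up
  have h3 : d.u0 z = d.l z.1 + d.l z.2 := rfl
  have hu := abs_le.1 (u_u0 h z)
  have hV := (htop d h (d.u q z) (by linarith) (by linarith)).1
  have kill : Near k ∨ Off k → False := by
    intro hno
    have h1 := alive_nRS (fun i => Fl_pair i) hal hno
    have h2 : (d.cp q).VS (d.u q z) = d.VS q (d.u q z) := rfl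
    rw [h2, hV] at h1
    exact lt_irrefl _ h1
  rcases zo_cases k with hi | hs | hn | ho
  · exact absurd hi hk
  · exact hs
  · exact (kill (Or.inl hn)).elim
  · exact (kill (Or.inr ho)).elim

/-- **(D3')** For `u0 ≥ 2 l₀ + 4.6 R` only `iH` of the zones at infinity is alive. -/
theorem high_inf (hR : 0 < q.R) (h : 2 * d.l₀ q + 23 / 5 * q.R ≤ d.u0 z) {k : Zo} (hk : Inf k)
    (hal : d.ch q k z ≠ 0) : k = .iH := by
  have h1 : 1 ≤ d.thi q z := by
    have h2 : 1 ≤ 20 * (d.u0 z - 2 * d.l₀ q) / q.R - 91 := by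
      have : 92 ≤ 20 * (d.u0 z - 2 * d.l₀ q) / q.R := by
        rw [le_div_iff₀ hR]
        linarith
      linarith
    unfold Pk.thi
    rw [Real.smoothTransition.one_of_one_le h2]
    have := Real.smoothTransition.nonneg (20 * d.gl q z.1 - 58)
    have := Real.smoothTransition.nonneg (20 * d.gl q z.2 - 58)
    linarith
  rcases hk with rfl | rfl | rfl
  · rfl
  · exact absurd (alive_iF (fun i => Fl_pair i) hal).1 (not_lt.2 h1)
  · exact absurd (alive_iS (fun i => Fl_pair i) hal).1 (not_lt.2 h1)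

/-- **The leaves which are alive where `tinf > 0`.** -/
structure Liv (q : Cst) (d : Pk n) (z : VV n) (k : Zo) : Prop where
  nr : Nr q d z
  cas : ((k = .RSf ∨ k = .Af) ∧ (q.κ₁ * q.R) ^ 2 / 4 ≤ qq z) ∨
    ((k = .z0 ∨ k = .A1 ∨ k = .A2 ∨ k = .Af) ∧ d.u0 z < -(3 / 2) * (q.R / q.σ)) ∨
    ((k = .RSn ∨ k = .RSf) ∧ 2 * d.l₀ q + 91 / 20 * q.R < d.u0 z)

theorem EvC.liv (n : ℕ) : EvC fun q => ∀ d : Pk n, PkOk q d → ∀ z : VV n, 0 < d.tinf q z →
    ∀ k, ¬Inf k → d.ch q k z ≠ 0 → Liv q d z k := by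
  refine (((EvC.pos.and (EvC.nr n)).and ((EvC.far n).and (EvC.deep n))).and
    (EvC.high n)).mono ?_
  rintro q ⟨⟨⟨⟨-, ⟨a1, a2, -⟩, -, -, -, -, -, a4⟩, hnr⟩, hf, hd⟩, hh⟩ d h z hti k hk hal
  have hR : 0 < q.R := by linarith
  refine ⟨hnr d h z (tinf_of hk hal), ?_⟩
  rw [tinf_eq] at hti
  have h3 : d.u0 z = d.l z.1 + d.l z.2 := rfl
  rcases H404.INF.tinf_pos a1 a2 hR hti with c | c | c
  · left
    have c' : (q.κ₁ * q.R) ^ 2 / 4 ≤ qq z := c.le
    exact ⟨(hf d h z c' k hal).resolve_left hk, c'⟩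
  · right; left
    exact ⟨hd d h z (by rw [h3]; exact c) k hk hal, by rw [h3]; exact c⟩
  · right; right
    have h4 : 2 * d.l₀ q + 91 / 20 * q.R < d.u0 z := by rw [h3]; linarith
    exact ⟨hh d h z h4.le k hk hal, h4⟩

end Vale.Agent.P088.R2.H871.E
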