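import Vale.Agent.P088.R2.H871.E.PaI
import Vale.Agent.P088.R2.H679.E.Fin
import Vale.Agent.P088.R2.H206.E.P0
import Vale.Agent.P088.R2.H591.X.F0

/-!
# P088, stage 3, EST': the payments where `tinf > 0` for the literal letters
-/

open Set Filter
open scoped ContDiff Topology Matrix

noncomputable section

namespace Vale.Agent.P088.R2.H871.E

open Vale.Agent.P088.LR Vale.Agent.P088.HY
open Vale.Agent.P088.R2.H31.EP
open Vale.Agent.P088.R2.H867.EP
open Vale.Agent.P088.R2.H455.E
open Vale.Agent.P088.R2.H551.E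
open Vale.Agent.P088.R2.H558.G
open Vale.Agent.P088.R2.H591.X (F0)
open Vale.Agent.P088.R2.H551.RS (LRS)

variable {n : ℕ}

theorem F0_M {L : Lc n} (hF : Lit (F0 n) L) (k : Zo) (q : Cst) (d : Pk n) :
    L.FM k q d = H591.X.FM0 k q d := by rw [hF.FM]; rfl

theorem F0_C {L : Lc n} (hF : Lit (F0 n) L) (k : Zo) (q : Cst) (d : Pk n) :
    L.FC k q d = H591.X.FC0 k q d := by rw [hF.FC]; rfl

theorem lrs_F0 {L : Lc n} (hF : Lit (F0 n) L) : LRS L where
  Mn q d := F0_M hF .RSn q d
  Cn q d := F0_C hF .RSn q d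
  Mf q d := F0_M hF .RSf q d
  Cf q d := F0_C hF .RSf q d

/-- **The payments of all pairs where `tinf > 0`**, for the literal letters, from row SS and the
leaf `iS`. -/
theorem payI_F0 (hn : 1 ≤ n) (hSS : H168.INF.RowSS n) {L : Lc n} (hL : L.Ok)
    (hF : Lit (F0 n) L) (pS : PbI L .iS) (cS : CbI L .iS) (k j : Zo) : H844.E.PayI L k j := by
  have hE := rowFn n
  refine payI_all (fun k hk => ?_) (fun k hk => ?_)
    (outH (fun q d => F0_M hF .iH q d) fun q d => F0_C hF .iH q d) k j
  · rcases hk with hk | hk | rfl | hk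
    · rcases hk with rfl | rfl | rfl
      · exact H679.E.pbI_iH fun q d => F0_M hF .iH q d
      · exact H679.E.pbI_iF' hn fun q d => F0_M hF .iF q d
      · exact pS
    · rcases hk with rfl | rfl
      · exact pbI_RSn hn (lrs_F0 hF)
      · exact pbI_RSf hn (lrs_F0 hF)
    · exact H206.E.pb0 hn hL
    · exact H206.E.pbA hE hL hk
  · rcases hk with hk | hk | rfl | hk
    · rcases hk with rfl | rfl | rfl
      · exact H679.E.cbI_iH' hn hSS fun q d => F0_C hF .iH q d
      · exact H679.E.cbI_iF' hn fun q d => F0_C hF .iF q d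
      · exact cS
    · rcases hk with rfl | rfl
      · exact cbI_RSn hn (lrs_F0 hF)
      · exact cbI_RSf hn (lrs_F0 hF)
    · exact H206.E.cb0 hn hL
    · exact H206.E.cbA hn hE hL hk

end Vale.Agent.P088.R2.H871.E
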