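import Vale.Agent.P088.R2.H871.E.PaF
import Vale.Agent.P088.R2.H406.INF.SS
import Vale.Agent.P088.R2.H380.E.PiS

/-!
# P088, stage 3, EST': the payments where `tinf > 0`, unconditionally
-/

noncomputable section

namespace Vale.Agent.P088.R2.H871.E

open Vale.Agent.P088.LR Vale.Agent.P088.HY
open Vale.Agent.P088.R2.H31.EP
open Vale.Agent.P088.R2.H867.EP
open Vale.Agent.P088.R2.H455.E
open Vale.Agent.P088.R2.H551.E
open Vale.Agent.P088.R2.H558.G
open Vale.Agent.P088.R2.H591.X (F0)

variable {n : ℕ}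

/-- **The payments of all pairs where `tinf > 0`**, for the literal letters. -/
theorem payI_F (hn : 1 ≤ n) {L : Lc n} (hL : L.Ok) (hF : Lit (F0 n) L) (k j : Zo) :
    H844.E.PayI L k j :=
  payI_F0 hn (H406.INF.rowSS hn) hL hF
    (H380.E.pbI_iS hn (funext fun q => funext fun d => F0_M hF .iS q d))
    (H380.E.cbI_iS hn (funext fun q => funext fun d => F0_C hF .iS q d)) k j

end Vale.Agent.P088.R2.H871.E
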