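import Vale.Agent.P088.R2.H871.E.Dead
import Vale.Agent.P088.R2.H404.INF.Dc
import Vale.Agent.P088.R2.H222.PkR

/-!
# P088, stage 3, EST': where `tinf > 0`: `u = u0`, flat tensors at deep and high pairs
-/

open Set Filter
open scoped ContDiff Topology Matrix

noncomputable section

namespace Vale.Agent.P088.R2.H871.E

open Vale.Agent.P088.LR Vale.Agent.P088.HY
open Vale.Agent.P088.R2.H31.EP
open Vale.Agent.P088.R2.H464.Cu (mid dif rq bf)
open Vale.Agent.P088.R2.H867.EP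
open Vale.Agent.P088.R2.H404.INF (InfC evInf LvG)

variable {n : ℕ} {q : Cst} {d : Pk n} {z : VV n}

/-! ## The midpoint -/

theorem wv_mid (σ R : ℝ) (z : VV n) : H475.wv n σ (R⁻¹ • mid z) =
    (1 / 2 : ℝ) • (H475.wv n σ (R⁻¹ • z.1) + H475.wv n σ (R⁻¹ • z.2)) := by
  unfold H475.wv mid
  ext i
  simp only [Pi.smul_apply, Pi.add_apply, smul_eq_mul]
  ring

theorem mid_sub (z : VV n) : mid z - z.1 = (1 / 2 : ℝ) • (z.2 - z.1) := by
  unfold mid
  module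

theorem mid_sub' (z : VV n) : mid z - z.2 = (1 / 2 : ℝ) • (z.1 - z.2) := by
  unfold mid
  module

/-- The three points are Lipschitz close. -/
theorem lip3 (hL : LvG q.σ q.R (d.l₀ q) (H475.gg n q.σ) d.l)
    (h1 : d.l z.1 ≤ d.l₀ q + 3 * q.R) (h2 : d.l z.2 ≤ d.l₀ q + 3 * q.R) :
    |d.l z.1 - d.l z.2| ≤ 101 / 100 * √(HY.sq (z.1 - z.2)) ∧
    |d.l (mid z) - d.l z.1| ≤ 101 / 200 * √(HY.sq (z.1 - z.2)) ∧
    |d.l (mid z) - d.l z.2| ≤ 101 / 200 * √(HY.sq (z.1 - z.2)) := by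
  have hR := hL.R0
  have h0 := hL.σ0
  have hσ := hL.σ1
  have t1 := hL.g.t_le h0 (by norm_num) ((hL.l12 z.1).2 h1)
  have t2 := hL.g.t_le h0 (by norm_num) ((hL.l12 z.2).2 h2)
  have w1 : √(HY.sq (H475.wv n q.σ (q.R⁻¹ • z.1))) ≤ 101 / 100 := by linarith
  have w2 : √(HY.sq (H475.wv n q.σ (q.R⁻¹ • z.2))) ≤ 101 / 100 := by linarith
  have w3 : √(HY.sq (H475.wv n q.σ (q.R⁻¹ • mid z))) ≤ 101 / 100 := by
    rw [wv_mid, H475.en_smul, abs_of_pos (by norm_num : (0 : ℝ) < 1 / 2)]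
    have := H475.en_add (H475.wv n q.σ (q.R⁻¹ • z.1)) (H475.wv n q.σ (q.R⁻¹ • z.2))
    linarith
  have key : ∀ {x y : V n}, √(HY.sq (H475.wv n q.σ (q.R⁻¹ • x))) ≤ 101 / 100 →
      √(HY.sq (H475.wv n q.σ (q.R⁻¹ • y))) ≤ 101 / 100 →
      |d.l x - d.l y| ≤ 101 / 100 * √(HY.sq (x - y)) := by
    intro x y hx hy
    have h3 := hL.g.lip _ _ hx hy
    rw [H404.INF.en_div hR] at h3
    have e : d.l x - d.l y = q.R * (H475.gg n q.σ (q.R⁻¹ • x) - H475.gg n q.σ (q.R⁻¹ • y)) := by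
      rw [hL.eq x, hL.eq y]; ring
    rw [e, abs_mul, abs_of_pos hR]
    calc _ ≤ q.R * (101 / 100 * (√(HY.sq (x - y)) / q.R)) := mul_le_mul_of_nonneg_left h3 hR.le
      _ = _ := by field_simp
  refine ⟨key w1 w2, (key w3 w1).trans (le_of_eq ?_), (key w3 w2).trans (le_of_eq ?_)⟩
  · rw [mid_sub, H475.en_smul, abs_of_pos (by norm_num : (0 : ℝ) < 1 / 2), H404.INF.sq_swap]
    ring
  · rw [mid_sub', H475.en_smul, abs_of_pos (by norm_num : (0 : ℝ) < 1 / 2)]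
    ring

/-! ## `u = u0` -/

/-- **Where `tinf > 0`, the correction `μ` is not seen.** -/
theorem EvC.u_eq (n : ℕ) : EvC fun q => ∀ d : Pk n, PkOk q d → ∀ z : VV n, 0 < d.tinf q z →
    d.l z.1 < d.l₀ q + 3 * q.R → d.l z.2 < d.l₀ q + 3 * q.R → d.u q z = d.u0 z := by
  have h1 : EvC fun q => 0 < q.κ₁ → 8 ≤ (q.κ₁ * q.R) ^ 2 / 4 := by
    refine EvC.at_R (fun q t => 0 < q.κ₁ → 8 ≤ (q.κ₁ * t) ^ 2 / 4) fun q => ?_
    by_cases hk : 0 < q.κ₁
    · have ht : Tendsto (fun t : ℝ => (q.κ₁ * t) ^ 2 / 4) atTop atTop :=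
        ((tendsto_pow_atTop (by norm_num)).comp (tendsto_id.const_mul_atTop hk)).atTop_div_const
          (by norm_num)
      filter_upwards [ht.eventually_ge_atTop 8] with t ht _ using ht
    · exact Eventually.of_forall fun _ h => absurd h hk
  refine ((evInf.and (EvC.lvG n)).and ((EvC.rq n).and (h1.and EvC.pos))).mono ?_
  rintro q ⟨⟨hI, hl⟩, hrq, hκ, hpos⟩ d h z hti l1 l2
  obtain ⟨-, ⟨-, -, -, -, b5, -, -⟩, c1, -⟩ := hpos
  have hL := hl d h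
  have hR := hL.R0
  have h0 := hL.σ0
  have hk := hI.κ0
  obtain ⟨p1, p2, p3⟩ := lip3 hL l1.le l2.le
  have e0 : d.u0 z = d.l z.1 + d.l z.2 := rfl
  have eu : d.u q z = d.u0 z + 2 * (d.χ (H31.EP.r2 (gi d.s₁) z) * d.μc q (d.l (mid z))) := rfl
  rcases le_or_gt ((q.κ₁ * q.R) ^ 2 / 4) (qq z) with c | c
  · have h2 : 4 ≤ H31.EP.r2 (gi d.s₁) z := by
      have := ((hrq d h).2 z).2.1
      have := hκ hk
      unfold H31.EP.r2
      linarith
    rw [eu, h.χ0 _ h2]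
    ring
  · have hq : √(HY.sq (z.1 - z.2)) ≤ q.κ₁ * q.R / 2 := by
      rw [Real.sqrt_le_left (by positivity)]
      have : HY.sq (z.1 - z.2) = qq z := rfl
      rw [this]
      nlinarith
    have hq' : √(HY.sq (z.1 - z.2)) ≤ q.R / 100 := by
      have := hI.κ1
      nlinarith
    have hl0 := hL.l0
    have hl1 := hL.l1
    obtain ⟨p1a, p1b⟩ := abs_le.1 p1
    obtain ⟨p2a, p2b⟩ := abs_le.1 p2
    obtain ⟨p3a, p3b⟩ := abs_le.1 p3
    have hti' := hti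
    rw [tinf_eq] at hti'
    have hμ : d.μc q (d.l (mid z)) = 0 := by
      rcases H404.INF.tinf_pos hk h0 hR hti' with c' | c' | c'
      · exact absurd c' (not_lt.2 c.le)
      · have h3 : 5000 * q.R ≤ q.R / q.σ := by
          rw [le_div_iff₀ h0]
          have := hI.σ1
          nlinarith
        have h4 : d.μ (d.l (mid z)) = 0 := by
          refine h.ph.isμ.ze _ ?_
          have h5 : 0 ≤ H313.Mu.sw q.Cs q.M₀ := by
            unfold H313.Mu.sw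
            have : 0 ≤ Real.log (q.Cs * q.M₀) := Real.log_nonneg (by nlinarith)
            linarith
          linarith
        rw [Pk.μc, h4, zero_mul]
      · exact Pk.μc_zero d q hR (by linarith)
    rw [eu, hμ]
    ring

theorem EvC.u_ev (n : ℕ) : EvC fun q => ∀ d : Pk n, PkOk q d → ∀ z : VV n, 0 < d.tinf q z →
    d.l z.1 < d.l₀ q + 3 * q.R → d.l z.2 < d.l₀ q + 3 * q.R → d.u q =ᶠ[𝓝 z] d.u0 := by
  refine (EvC.u_eq n).mono fun q hq d h z h1 h2 h3 => ?_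
  have c1 : Continuous (d.tinf q) := h.tinf_sm.continuous
  have c2 : Continuous d.l := h.l_sm.continuous
  filter_upwards [(isOpen_lt continuous_const c1).mem_nhds h1,
    (isOpen_lt (c2.comp continuous_fst) continuous_const).mem_nhds h2,
    (isOpen_lt (c2.comp continuous_snd) continuous_const).mem_nhds h3] with w a1 a2 a3
  exact hq d h w a1 a2 a3

/-! ## Flat tensors -/

/-- The tensors are `1` at deep points. -/
theorem flat_deep (hn : 1 ≤ n) (h : PkOk q d) (hL : LvG q.σ q.R (d.l₀ q) (H475.gg n q.σ) d.l)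
    {x : V n} (hx : d.l x < d.l₀ q - 4 * q.R) : d.s₁ x = 1 ∧ d.s₂ x = 1 := by
  have hR := hL.R0
  have h0 := hL.σ0
  have hσ := hL.σ1
  refine h.rg.of x fun hc => ?_
  have hc' : HY.sq (x - 0) < (2 * q.R) ^ 2 := hc
  rw [sub_zero] at hc'
  have hx2 : √(HY.sq x) ≤ 2 * q.R := (Real.sqrt_lt' (by linarith)).2 hc' |>.le
  have e0' : HY.sq (HY.T3.e0 n) = 1 := H475.sq_e0' hn
  have e1 : √(HY.sq (HY.T3.e0 n)) = 1 := by rw [e0', Real.sqrt_one]
  have hxe : √(HY.sq (q.R⁻¹ • x - HY.T3.e0 n)) ≤ 3 := by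
    have h3 := H475.en_sub (q.R⁻¹ • x) (HY.T3.e0 n)
    rw [H475.en_smul, abs_of_pos (inv_pos.2 hR), e1] at h3
    have h4 : q.R⁻¹ * √(HY.sq x) ≤ 2 := by
      rw [inv_mul_le_iff₀ hR]
      linarith
    linarith
  have we : H475.wv n q.σ (HY.T3.e0 n) = HY.T3.e0 n := by
    unfold H475.wv
    ext i
    simp
  have w1 : √(HY.sq (H475.wv n q.σ (HY.T3.e0 n))) ≤ 101 / 100 := by
    rw [we, e1]; norm_num
  have w2 : √(HY.sq (H475.wv n q.σ (q.R⁻¹ • x))) ≤ 101 / 100 := by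
    have h3 := H475.en_wv_le (n := n) h0 (q.R⁻¹ • x) (HY.T3.e0 n)
    rw [we, e1] at h3
    have h4 : q.σ * √(HY.sq (q.R⁻¹ • x - HY.T3.e0 n)) ≤ q.σ * 3 :=
      mul_le_mul_of_nonneg_left hxe h0.le
    linarith
  have h5 := (abs_le.1 (hL.g.lip _ _ w2 w1)).1
  have h6 : H475.gg n q.σ (HY.T3.e0 n) = 0 := by
    rw [hL.g.lit _ (by rw [we, e0']), we, e0']
    simp
  rw [h6] at h5
  have h7 : -4 < H475.gg n q.σ (q.R⁻¹ • x) := by linarith
  rw [hL.eq x] at hx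
  nlinarith

end Vale.Agent.P088.R2.H871.E
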