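import Vale.Agent.P088.R2.H871.E.Zb

/-!
# P088, stage 3, EST': the derivatives of the cut-offs at far, deep and high pairs
-/

open Set Filter
open scoped ContDiff Topology Matrix

noncomputable section

namespace Vale.Agent.P088.R2.H871.E

open Vale.Agent.P088.LR Vale.Agent.P088.HY
open Vale.Agent.P088.R2.H31.EP
open Vale.Agent.P088.R2.H464.Cu (mid dif rq bf)
open Vale.Agent.P088.R2.H867.EP
open Vale.Agent.P088.R2.H404.INF (InfC evInf LvG en2 en2_nonneg)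

variable {n : ℕ} {q : Cst} {d : Pk n} {z : VV n}

/-! ## The cut `rs` -/

/-- The bound of the derivative of the cut `rs`. -/
theorem EvC.rs_b (n : ℕ) : EvC fun q => ∀ d : Pk n, PkOk q d → ∀ z : VV n, 0 < d.tinf q z →
    d.tinf q z < 1 → ∀ v : VV n,
    |fderiv ℝ (d.cv q .rs) z v| ≤ 2 * cSt * (q.L + 3) * en2 v := by
  refine ((EvC.u_ev n).and ((EvC.nr n).and ((EvC.litSm n).and (evInf.and EvC.pos)))).mono ?_
  rintro q ⟨hu, hnr, hsm, hI, hpos⟩ d h z h1 h2 v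
  obtain ⟨-, ⟨-, b2, -, -, -, b6, -⟩, c1, -⟩ := hpos
  have nr := hnr d h z h2
  have hR := hI.R0
  have a1 := (H404.INF.gl_le hI h).1 nr.ok.g1
  have a2 := (H404.INF.gl_le hI h).1 nr.ok.g2
  have hue := hu d h z h1 (by linarith) (by linarith)
  have hL : 0 ≤ q.L := by unfold Cst.L; positivity
  have e1 : d.cv q .rs =ᶠ[𝓝 z] fun w => d.VS q (d.u0 w) := by
    filter_upwards [hue] with w hw
    show (d.VS q (d.u q w) - 0) / 1 = _
    rw [hw]; ring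
  have hVs : Differentiable ℝ (d.VS q) := ((hsm d h).cp.VSs).differentiable (by simp)
  have hu0 : DifferentiableAt ℝ d.u0 z := (hsm d h).u0.differentiable (by simp) z
  have e2 : HasFDerivAt (fun w => d.VS q (d.u0 w)) (deriv (d.VS q) (d.u0 z) • fderiv ℝ d.u0 z) z :=
    (hVs _).hasDerivAt.comp_hasFDerivAt z hu0.hasFDerivAt
  rw [e1.fderiv_eq, e2.fderiv, smul_apply, smul_eq_mul, abs_mul]
  have h3 := dVS h c1 hL (d.u0 z)
  have h4 : |fderiv ℝ d.u0 z v| ≤ 2 * en2 v :=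
    H404.INF.fd_u0 hI h (by
      have := nr.ok.up
      linarith) v
  have c0 : 0 ≤ cSt := zero_le_one.trans cSt_one
  calc _ ≤ cSt * (q.L + 3) * (2 * en2 v) := mul_le_mul h3 h4 (abs_nonneg _) (by positivity)
    _ = _ := by ring

/-! ## Flat tensors near deep and high pairs -/

/-- A function is smaller (larger) near a point. -/
theorem ev_lt {f : VV n → ℝ} (hf : Continuous f) {c : ℝ} (h : f z < c) : ∀ᶠ w in 𝓝 z, f w < c :=
  (isOpen_lt hf continuous_const).mem_nhds h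

theorem ev_gt {f : VV n → ℝ} (hf : Continuous f) {c : ℝ} (h : c < f z) : ∀ᶠ w in 𝓝 z, c < f w :=
  (isOpen_lt continuous_const hf).mem_nhds h

/-- The tensors are `1` at the three points near `z`. -/
structure Fla (d : Pk n) (z : VV n) : Prop where
  x : ∀ᶠ w : VV n in 𝓝 z, d.s₁ w.1 = 1 ∧ d.s₂ w.1 = 1
  y : ∀ᶠ w : VV n in 𝓝 z, d.s₁ w.2 = 1 ∧ d.s₂ w.2 = 1
  m : ∀ᶠ w : VV n in 𝓝 z, d.s₁ (mid w) = 1
  q : ∀ᶠ w : VV n in 𝓝 z, 2 * rq (gi d.s₁) w = qq w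

theorem rq_flat {w : VV n} (h : d.s₁ (mid w) = 1) : 2 * rq (gi d.s₁) w = qq w := by
  unfold rq gi qq bf HY.sq
  rw [h, inv_one]
  simp only [Matrix.one_apply, ite_mul, one_mul, zero_mul, Finset.sum_ite_eq, Finset.mem_univ,
    if_true]
  rw [← mul_assoc]
  norm_num
  exact Finset.sum_congr rfl fun i _ => by
    rw [H464.Cu.dif_apply]
    show _ = (w.1 i - w.2 i) ^ 2
    ring

theorem EvC.fla (n : ℕ) (hn : 1 ≤ n) : EvC fun q => ∀ d : Pk n, PkOk q d → ∀ z : VV n,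
    d.tinf q z < 1 → (d.u0 z < -(3 / 2) * (q.R / q.σ) ∨ 2 * d.l₀ q + 91 / 20 * q.R ≤ d.u0 z) →
    Fla d z := by
  refine ((EvC.nr n).and ((EvC.lvG n).and evInf)).mono ?_
  rintro q ⟨hnr, hl, hI⟩ d h z h2 hc
  have nr := hnr d h z h2
  have hL := hl d h
  have hR := hL.R0
  have h0 := hL.σ0
  have a1 := (H404.INF.gl_le hI h).1 nr.ok.g1
  have a2 := (H404.INF.gl_le hI h).1 nr.ok.g2
  obtain ⟨p1, p2, p3⟩ := lip3 (z := z) hL (by linarith) (by linarith)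
  have hq : √(HY.sq (z.1 - z.2)) ≤ q.R / 50 := by
    have := nr.ok.q
    have := hI.κ1
    nlinarith
  have hl0 := hL.l0
  have hl1 := hL.l1
  obtain ⟨p1a, p1b⟩ := abs_le.1 p1
  obtain ⟨p2a, p2b⟩ := abs_le.1 p2
  have e0 : d.u0 z = d.l z.1 + d.l z.2 := rfl
  have cl : Continuous d.l := h.l_sm.continuous
  have c1 : Continuous fun w : VV n => d.l w.1 := cl.comp continuous_fst
  have c2 : Continuous fun w : VV n => d.l w.2 := cl.comp continuous_snd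
  have cm : Continuous fun w : VV n => d.l (mid w) := cl.comp
    H464.Cu.contDiff_mid.continuous
  rcases hc with hc | hc
  · have h3 : 5000 * q.R ≤ q.R / q.σ := by
      rw [le_div_iff₀ h0]
      have := hI.σ1
      nlinarith
    have x1 : d.l z.1 < d.l₀ q - 4 * q.R := by linarith
    have x2 : d.l z.2 < d.l₀ q - 4 * q.R := by linarith
    have x3 : d.l (mid z) < d.l₀ q - 4 * q.R := by linarith
    refine ⟨(ev_lt c1 x1).mono fun w hw => flat_deep hn h hL hw,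
      (ev_lt c2 x2).mono fun w hw => flat_deep hn h hL hw,
      (ev_lt cm x3).mono fun w hw => (flat_deep hn h hL hw).1,
      (ev_lt cm x3).mono fun w hw => rq_flat (flat_deep hn h hL hw).1⟩
  · have x1 : d.l₀ q + 21 / 20 * q.R < d.l z.1 := by linarith
    have x2 : d.l₀ q + 21 / 20 * q.R < d.l z.2 := by linarith
    have x3 : d.l₀ q + 21 / 20 * q.R < d.l (mid z) := by linarith
    have fl := fun {x : V n} (hx : d.l₀ q + 21 / 20 * q.R < d.l x) =>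
      H222.flat hn h hI.σ0 hI.σ1 hR hx.le
    refine ⟨(ev_gt c1 x1).mono fun w hw => fl hw, (ev_gt c2 x2).mono fun w hw => fl hw,
      (ev_gt cm x3).mono fun w hw => (fl hw).1, (ev_gt cm x3).mono fun w hw => rq_flat (fl hw).1⟩

/-- The derivative of a cut of the distance where the tensors are flat. -/
theorem tauD_b (hf : Fla d z) {a b : ℝ} (ha : 0 < a) (hab : a < b) (v : VV n)
    (h1 : tauD a b (rq (gi d.s₁)) z < 1) :
    |fderiv ℝ (tauD a b (rq (gi d.s₁))) z v| ≤ 2 * b / (b ^ 2 - a ^ 2) * en2 v := by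
  have hD := sq_lt ha hab
  have e1 : tauD a b (rq (gi d.s₁)) =ᶠ[𝓝 z] fun w => (qq w - a ^ 2) / (b ^ 2 - a ^ 2) := by
    filter_upwards [hf.q] with w hw
    show (2 * rq (gi d.s₁) w - a ^ 2) / (b ^ 2 - a ^ 2) = _
    rw [hw]
  have hq := tauD_le ha hab h1.le
  rw [hf.q.self_of_nhds] at hq
  have d1 : DifferentiableAt ℝ (fun z : VV n => HY.sq (z.1 - z.2)) z :=
    H404.INF.fd_sq.differentiableAt
  have e2 : HasFDerivAt (fun w : VV n => (qq w - a ^ 2) / (b ^ 2 - a ^ 2))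
      ((b ^ 2 - a ^ 2)⁻¹ • fderiv ℝ (fun z : VV n => HY.sq (z.1 - z.2)) z) z := by
    have := (d1.hasFDerivAt.sub_const (a ^ 2)).mul_const (b ^ 2 - a ^ 2)⁻¹
    exact this
  rw [e1.fderiv_eq, e2.fderiv, smul_apply, smul_eq_mul, abs_mul, abs_of_pos (inv_pos.2 hD)]
  have h2 := H404.INF.fd_sq_le (z := z) v
  have h3 : √(HY.sq (z.1 - z.2)) ≤ b := by
    rw [Real.sqrt_le_left (by linarith)]
    exact hq
  have h4 := en2_nonneg v
  have h5 : |fderiv ℝ (fun z : VV n => HY.sq (z.1 - z.2)) z v| ≤ 2 * b * en2 v := by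
    refine h2.trans ?_
    nlinarith
  calc _ ≤ (b ^ 2 - a ^ 2)⁻¹ * (2 * b * en2 v) := mul_le_mul_of_nonneg_left h5 (inv_pos.2 hD).le
    _ = _ := by ring

theorem tauR_eq (c : ℝ) (ρ : VV n → ℝ) : H932.EP.tauR c ρ = tauD c (2 * c) ρ := by
  funext w
  unfold H932.EP.tauR tauD
  congr 1
  ring

/-- The bound of the derivatives of the cuts of the distance. -/
def bD (q : Cst) : ℝ :=
  2 * (2 * q.c₀) / ((2 * q.c₀) ^ 2 - q.c₀ ^ 2) +
    2 * (2 * q.p₁) / ((2 * q.p₁) ^ 2 - (3 / 2 * q.p₁) ^ 2) + 2 * q.p₂ / (q.p₂ ^ 2 - q.p₁ ^ 2) +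
    2 * (prR q.e₁ + 1) / ((prR q.e₁ + 1) ^ 2 - prR q.e₁ ^ 2) + 1

theorem bD_NB (q : Cst) : bD q.b_ν₁ = bD q := rfl

/-- The cuts of the distance at a flat point. -/
theorem dist_b (hP : (d.cp q).Ok) (hf : Fla d z) {i : Cut}
    (hi : i = .r ∨ i = .far ∨ i = .rp ∨ i = .rS) (v : VV n) (h1 : d.cv q i z < 1) :
    |fderiv ℝ (d.cv q i) z v| ≤ bD q * en2 v := by
  have hv := en2_nonneg v
  have q1 := hP.q₁
  have q2 := sq_lt hP.q₁ hP.q₂
  have c1 := hP.c₀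
  have r1 := hP.r₁
  have r2 := sq_lt hP.r₁ hP.r₂
  have p1 := hP.p₁
  have p2 := sq_lt hP.p₁ hP.p₂
  have c2 : 0 < (2 * q.c₀) ^ 2 - q.c₀ ^ 2 := sq_lt c1 (by linarith [show 0 < q.c₀ from c1])
  have t1 : 0 ≤ 2 * (2 * q.c₀) / ((2 * q.c₀) ^ 2 - q.c₀ ^ 2) := by
    have : 0 < q.c₀ := c1
    positivity
  have t2 : 0 ≤ 2 * (2 * q.p₁) / ((2 * q.p₁) ^ 2 - (3 / 2 * q.p₁) ^ 2) := by
    have : 0 < 3 / 2 * q.p₁ := r1
    have : 0 < (2 * q.p₁) ^ 2 - (3 / 2 * q.p₁) ^ 2 := r2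
    exact div_nonneg (by linarith) this.le
  have t3 : 0 ≤ 2 * q.p₂ / (q.p₂ ^ 2 - q.p₁ ^ 2) := by
    have h3 : 0 < q.p₁ := p1
    have h4 : q.p₁ < q.p₂ := hP.p₂
    have : 0 < q.p₂ ^ 2 - q.p₁ ^ 2 := p2
    exact div_nonneg (by linarith) this.le
  have t4 : 0 ≤ 2 * (prR q.e₁ + 1) / ((prR q.e₁ + 1) ^ 2 - prR q.e₁ ^ 2) := by
    have h3 : 0 < prR q.e₁ := q1
    have : 0 < (prR q.e₁ + 1) ^ 2 - prR q.e₁ ^ 2 := q2
    exact div_nonneg (by linarith) this.le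
  have le_bD : ∀ t : ℝ, t ≤ bD q → t * en2 v ≤ bD q * en2 v := fun t ht =>
    mul_le_mul_of_nonneg_right ht hv
  have k1 : 2 * (2 * q.c₀) / ((2 * q.c₀) ^ 2 - q.c₀ ^ 2) ≤ bD q := by unfold bD; linarith
  have k2 : 2 * (2 * q.p₁) / ((2 * q.p₁) ^ 2 - (3 / 2 * q.p₁) ^ 2) ≤ bD q := by
    unfold bD; linarith
  have k3 : 2 * q.p₂ / (q.p₂ ^ 2 - q.p₁ ^ 2) ≤ bD q := by unfold bD; linarith
  have k4 : 2 * (prR q.e₁ + 1) / ((prR q.e₁ + 1) ^ 2 - prR q.e₁ ^ 2) ≤ bD q := by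
    unfold bD; linarith
  have c1' : 0 < q.c₀ := c1
  rcases hi with rfl | rfl | rfl | rfl
  · have e : d.cv q .r = tauD q.c₀ (2 * q.c₀) (rq (gi d.s₁)) := tauR_eq _ _
    rw [e] at h1 ⊢
    exact (tauD_b hf c1' (by linarith) v h1).trans (le_bD _ k1)
  · exact (tauD_b hf r1 hP.r₂ v h1).trans (le_bD _ k2)
  · exact (tauD_b hf p1 hP.p₂ v h1).trans (le_bD _ k3)
  · exact (tauD_b hf q1 hP.q₂ v h1).trans (le_bD _ k4)

end Vale.Agent.P088.R2.H871.E
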