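import Vale.Agent.P088.R2.H871.E.Zc

/-!
# P088, stage 3, EST': the squares of the derivatives of the cut-offs of the near tree, `tinf > 0`
-/

open Set Filter
open scoped ContDiff Topology Matrix

noncomputable section

namespace Vale.Agent.P088.R2.H871.E

open Vale.Agent.P088.LR Vale.Agent.P088.HY
open Vale.Agent.P088.R2.H31.EP
open Vale.Agent.P088.R2.H464.Cu (mid dif rq bf)
open Vale.Agent.P088.R2.H867.EP
open Vale.Agent.P088.R2.H404.INF (InfC evInf LvG en2 en2_nonneg)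

variable {n : ℕ} {q : Cst} {d : Pk n} {z : VV n}

/-! ## The gradient of the flat weight at deep pairs -/

/-- At deep pairs with `r ≤ 2 p₁` the gradient of the flat weight is large. -/
theorem EvC.tub (n : ℕ) : EvC fun q => ∀ d : Pk n, PkOk q d → ∀ z : VV n,
    d.u0 z < -(3 / 2) * (q.R / q.σ) → d.tinf q z < 1 → qq z ≤ 8 * q.p₁ ^ 2 →
    (9 / 10 * d.NG q z) ^ 2 ≤ ∑ i, dx i (d.W0 q) z ^ 2 ∧
      (9 / 10 * d.NG q z) ^ 2 ≤ ∑ i, dy i (d.W0 q) z ^ 2 ∧
      Real.exp (d.u0 z) * (prS q.e₁ (qq z) + |deriv (prS q.e₁) (qq z)| *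
        (2 * (3 * q.p₁))) ≤ 1 / 1000 ∧ √(HY.sq (z.1 - z.2)) ≤ 3 * q.p₁ := by
  refine ((EvC.pos.and (EvC.nr n)).and (EvC.tiny.and EvC.rad)).mono ?_
  rintro q ⟨⟨⟨-, ⟨a3, a4, -⟩, a5, -, -, -, a6, a7⟩, hnr⟩, hty, hr⟩ d h z hz hti hq
  have hR : 0 < q.R := by linarith
  have nr := hnr d h z hti
  have hRσ : 0 < q.R / q.σ := by positivity
  have hS : Differentiable ℝ (prS q.e₁) := hr.pp.contDiff_Ph.differentiable (by simp)
  have hΦ : Differentiable ℝ d.Φ := h.Φs.differentiable (by simp)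
  have hl : Differentiable ℝ d.l := h.l_sm.differentiable (by simp)
  have hN : 1 ≤ deriv d.Φ (d.u0 z) := a5.trans (h.N_ge _)
  have hp1 : 1 ≤ q.p₁ := Cst.p₁_ge hr
  have hq0 := qq_nonneg z
  have hty' := hty (qq z) ⟨hq0, hq⟩
  have hs0 := PkOk.prS_nonneg (q := q) hr hq0
  rw [abs_of_nonneg hs0] at hty'
  have hsq : √(HY.sq (z.1 - z.2)) ≤ 3 * q.p₁ := by
    refine Real.sqrt_le_iff.2 ⟨by linarith, ?_⟩
    have : HY.sq (z.1 - z.2) = qq z := rfl
    rw [this]
    nlinarith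
  have hE : Real.exp (d.u0 z) ≤ Real.exp (-(q.R / q.σ)) := Real.exp_le_exp.2 (by linarith)
  have hsm : Real.exp (d.u0 z) * (prS q.e₁ (qq z) + |deriv (prS q.e₁) (qq z)| *
      (2 * (3 * q.p₁))) ≤ 1 / 1000 := by
    have h5 : (0 : ℝ) ≤ prS q.e₁ (qq z) + |deriv (prS q.e₁) (qq z)| * (6 * q.p₁) := by
      have := abs_nonneg (deriv (prS q.e₁) (qq z))
      positivity
    have h6 := mul_le_mul_of_nonneg_right hE h5
    calc _ = Real.exp (d.u0 z) * (prS q.e₁ (qq z) + |deriv (prS q.e₁) (qq z)| *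
          (6 * q.p₁)) := by ring
      _ ≤ _ := h6.trans hty'
  have sq_lo : ∀ {v : V n}, (24 / 25) ^ 2 ≤ ∑ i, v i ^ 2 → 24 / 25 ≤ √(HY.sq v) :=
    fun hv => Real.le_sqrt_of_sq_le hv
  have sq_up : ∀ {v : V n}, ∑ i, v i ^ 2 ≤ (101 / 100) ^ 2 → √(HY.sq v) ≤ 101 / 100 :=
    fun hv => Real.sqrt_le_iff.2 ⟨by norm_num, hv⟩
  refine ⟨?_, ?_, hsm, hsq⟩
  · have c := comb_low (g := fun i => pd i d.l z.1) (v := z.1 - z.2) hN (Real.exp_pos _).le hs0
      (by linarith) (sq_lo nr.g1) (sq_up nr.g1') hsq hsm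
    refine c.trans (le_of_eq (Finset.sum_congr rfl fun i _ => ?_))
    rw [dx_W0 hΦ hS hl]
    simp only [Pi.sub_apply]
  · have hsq' : √(HY.sq (z.2 - z.1)) ≤ 3 * q.p₁ := by
      rw [H404.INF.sq_swap]; exact hsq
    have c := comb_low (g := fun i => pd i d.l z.2) (v := z.2 - z.1) hN (Real.exp_pos _).le hs0
      (by linarith) (sq_lo nr.g2) (sq_up nr.g2') hsq' hsm
    refine c.trans (le_of_eq (Finset.sum_congr rfl fun i _ => ?_))
    rw [dy_W0 hΦ hS hl]
    simp only [Pi.sub_apply]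

/-! ## Deep pairs -/

/-- `VS = 0` below `uth`. -/
theorem VS_zero (h : d.u q z ≤ d.uth q) : d.cv q .rs z = 0 := by
  show (d.VS q (d.u q z) - 0) / 1 = 0
  have h3 : Real.smoothTransition (d.u q z - d.uth q) = 0 :=
    Real.smoothTransition.zero_of_nonpos (by linarith)
  unfold Pk.VS
  rw [h3, mul_zero]
  norm_num

/-- The leaves at deep pairs: the bound of the cuts which are on. -/
theorem EvC.deep_b (n : ℕ) (hn : 1 ≤ n) : EvC fun q => ∀ d : Pk n, PkOk q d → ∀ z : VV n,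
    d.u0 z < -(3 / 2) * (q.R / q.σ) → ∀ k, (k = .z0 ∨ k = .A1 ∨ k = .A2 ∨ k = .Af) →
    d.ch q k z ≠ 0 → ∀ v : VV n, ∀ i ∈ path k, 0 < d.cv q i z → d.cv q i z < 1 →
      |fderiv ℝ (d.cv q i) z v| ≤ (bD q + 1) * en2 v := by
  have hT : EvC fun q => q.rT ≤ 1 / 10 :=
    EvC.at_rT (fun _ t => t ≤ 1 / 10) fun _ => sml_le (by norm_num)
  have hA : EvC fun q => q.aC ≤ 1 := EvC.at_aC (fun _ t => t ≤ 1) fun _ => sml_le one_pos
  have hRb : EvC fun q => 0 < q.κ₁ → 300 / (q.κ₁ * q.R) ≤ 1 := by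
    refine EvC.at_R (fun q t => 0 < q.κ₁ → 300 / (q.κ₁ * t) ≤ 1) fun q => ?_
    by_cases hk : 0 < q.κ₁
    · filter_upwards [eventually_ge_atTop (300 / q.κ₁), eventually_gt_atTop 0] with t ht h0 _
      rw [div_le_iff₀ (by positivity)]
      rw [div_le_iff₀ hk] at ht
      linarith
    · exact Eventually.of_forall fun _ h => absurd h hk
  refine (((EvC.pos.and (EvC.tub n)).and ((EvC.cpOk n).and (EvC.rq n))).and
    ((evInf.and EvC.rad).and ((EvC.fla n hn).and ((hT.and hA).and hRb)))).mono ?_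
  rintro q ⟨⟨⟨⟨⟨-, -, -, -, a1, -, -, a2, -⟩, ⟨a3, a4, -⟩, a5, -, -, -, a6, a7⟩, htub⟩, hcp, hrq⟩,
    ⟨hI, hr⟩, hfl, ⟨hT, hA⟩, hRb⟩ d h z hz k hk hal v i hi h1 h2
  have hR : 0 < q.R := hI.R0
  have hP := hcp d h
  have hv := en2_nonneg v
  have hkI : ¬Inf k := by
    rcases hk with rfl | rfl | rfl | rfl <;> (unfold Inf; decide)
  have hti := tinf_of hkI hal
  have hF := hfl d h z hti (Or.inl hz)
  obtain ⟨l1, l2⟩ := l0_bd h a7 a6
  have hRσ : 0 < q.R / q.σ := by positivity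
  have hu := abs_le.1 (u_u0 h z)
  have huneg : d.u q z < 1 / 4 := by linarith
  have hbD : 0 ≤ bD q * en2 v := by
    have := dist_b hP hF (i := .r) (Or.inl rfl) v
    by_cases hc : d.cv q .r z < 1
    · exact (abs_nonneg _).trans (this hc)
    · have h3 : 0 < q.c₀ := hP.c₀
      have h4 := hP.r₁
      have h5 := sq_lt hP.r₁ hP.r₂
      have h6 := hP.p₁
      have h7 := sq_lt hP.p₁ hP.p₂
      have h8 := hP.q₁
      have h9 := sq_lt hP.q₁ hP.q₂
      have t2 : 0 ≤ 2 * (2 * q.p₁) / ((2 * q.p₁) ^ 2 - (3 / 2 * q.p₁) ^ 2) := by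
        have : 0 < 3 / 2 * q.p₁ := h4
        have : 0 < (2 * q.p₁) ^ 2 - (3 / 2 * q.p₁) ^ 2 := h5
        exact div_nonneg (by linarith) this.le
      have t3 : 0 ≤ 2 * q.p₂ / (q.p₂ ^ 2 - q.p₁ ^ 2) := by
        have h3 : 0 < q.p₁ := h6
        have h4 : q.p₁ < q.p₂ := hP.p₂
        have : 0 < q.p₂ ^ 2 - q.p₁ ^ 2 := h7
        exact div_nonneg (by linarith) this.le
      have t4 : 0 ≤ 2 * (prR q.e₁ + 1) / ((prR q.e₁ + 1) ^ 2 - prR q.e₁ ^ 2) := by
        have h3 : 0 < prR q.e₁ := h8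
        have : 0 < (prR q.e₁ + 1) ^ 2 - prR q.e₁ ^ 2 := h9
        exact div_nonneg (by linarith) this.le
      have t1 : 0 ≤ 2 * (2 * q.c₀) / ((2 * q.c₀) ^ 2 - q.c₀ ^ 2) := by
        have : 0 < (2 * q.c₀) ^ 2 - q.c₀ ^ 2 := sq_lt h3 (by linarith)
        exact div_nonneg (by linarith) this.le
      have : 0 ≤ bD q := by unfold bD; linarith
      positivity
  have e1 : (bD q + 1) * en2 v = bD q * en2 v + en2 v := by ring
  have toD : |fderiv ℝ (d.cv q i) z v| ≤ bD q * en2 v →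
      |fderiv ℝ (d.cv q i) z v| ≤ (bD q + 1) * en2 v := fun h => by rw [e1]; linarith
  have cinf : i = .inf → |fderiv ℝ (d.cv q i) z v| ≤ (bD q + 1) * en2 v := by
    rintro rfl
    refine (inf_b' hI h v h1 h2).trans ?_
    rw [e1]
    have := mul_le_mul_of_nonneg_right (hRb a3) hv
    linarith
  have crs : i ≠ .rs := by
    rintro rfl
    rw [VS_zero (by
      have : d.uth q = 2 * d.l₀ q + 22 / 10 * q.R := rfl
      rw [this]
      linarith)] at h1
    exact lt_irrefl _ h1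
  -- the tubes
  have tubs : (k = .A1 ∨ k = .A2) → i ≠ .T1 ∧ i ≠ .T2 ∧ i ≠ .P1 ∧ i ≠ .P2 := by
    intro hkA
    have ho : Off k := by rcases hkA with rfl | rfl <;> (unfold Off; decide)
    have hAf : k ≠ .Af := by rcases hkA with rfl | rfl <;> decide
    have h3 := alive_nf (fun i => Fl_pair i) hP hal ho hAf
    have h4 : (d.cp q).r₂ = 2 * q.p₁ := rfl
    rw [h4] at h3
    have h5 := ((hrq d h).2 z).2.1
    have hq : qq z ≤ 8 * q.p₁ ^ 2 := by linarith
    obtain ⟨g1, g2, -, -⟩ := htub d h z hz hti hq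
    have hNG : 0 < d.NG q z := by
      have := h.NG_ge hr z
      linarith
    have kill : ∀ {S t : ℝ}, 0 < t → t ≤ 4 / 10 → (9 / 10 * d.NG q z) ^ 2 ≤ S →
        (4 * S / (t * d.NG q z) ^ 2 - 1) / 3 < 1 → False := by
      intro S t ht ht' hS hlt
      have h1 := tube_of ht hNG hlt
      have h2 : (t * d.NG q z) ^ 2 ≤ (9 / 10 * d.NG q z) ^ 2 := by
        refine pow_le_pow_left₀ (by positivity) ?_ 2
        exact mul_le_mul_of_nonneg_right (by linarith) hNG.le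
      linarith
    refine ⟨?_, ?_, ?_, ?_⟩
    · rintro rfl; exact kill a2 (by linarith) g1 h2
    · rintro rfl; exact kill a2 (by linarith) g2 h2
    · rintro rfl; exact kill (by linarith : 0 < 4 * q.rT) (by linarith) g1 h2
    · rintro rfl; exact kill (by linarith : 0 < 4 * q.rT) (by linarith) g2 h2
  have dist : (i = .r ∨ i = .far ∨ i = .rp ∨ i = .rS) →
      |fderiv ℝ (d.cv q i) z v| ≤ (bD q + 1) * en2 v := fun hi => toD (dist_b hP hF hi v h2)
  have ce0 : i ≠ .e0 := by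
    rintro rfl
    have h3 : (d.cp q).u₀ ≤ (d.cp q).V₀ (d.u q z) :=
      tauU_ge (u := fun z => (d.cp q).V₀ (d.u q z)) hP.w₀ h1.le
    have h4 : (d.cp q).u₀ = -Real.log q.aC := rfl
    have h5 : (d.cp q).V₀ (d.u q z) = d.u q z - Real.log (deriv d.Φ (d.u q z)) := rfl
    rw [h4, h5] at h3
    have h6 : Real.log q.aC ≤ 0 := Real.log_nonpos a1.le hA
    have h7 : 0 ≤ Real.log (deriv d.Φ (d.u q z)) := Real.log_nonneg (a5.trans (h.N_ge _))
    have h8 : 1 ≤ q.R / q.σ := by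
      rw [le_div_iff₀ a4]
      have := hI.σ1
      linarith
    linarith
  rcases hk with rfl | rfl | rfl | rfl
  · have hc : i = .inf ∨ i = .rs ∨ i = .r ∨ i = .e0 := by
      cases i <;> revert hi <;> decide
    rcases hc with rfl | rfl | rfl | rfl
    · exact cinf rfl
    · exact absurd rfl crs
    · exact dist (Or.inl rfl)
    · exact absurd rfl ce0
  · have hc : i = .inf ∨ i = .rs ∨ i = .r ∨ i = .far ∨ i = .rp ∨ i = .T1 ∨ i = .T2 := by
      cases i <;> revert hi <;> decide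
    obtain ⟨t1, t2, t3, t4⟩ := tubs (Or.inl rfl)
    rcases hc with rfl | rfl | rfl | rfl | rfl | rfl | rfl
    · exact cinf rfl
    · exact absurd rfl crs
    · exact dist (Or.inl rfl)
    · exact dist (Or.inr (Or.inl rfl))
    · exact dist (Or.inr (Or.inr (Or.inl rfl)))
    · exact absurd rfl t1
    · exact absurd rfl t2
  · have hc : i = .inf ∨ i = .rs ∨ i = .r ∨ i = .far ∨ i = .rp ∨ i = .P1 ∨ i = .P2 := by
      cases i <;> revert hi <;> decide
    obtain ⟨t1, t2, t3, t4⟩ := tubs (Or.inr rfl)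
    rcases hc with rfl | rfl | rfl | rfl | rfl | rfl | rfl
    · exact cinf rfl
    · exact absurd rfl crs
    · exact dist (Or.inl rfl)
    · exact dist (Or.inr (Or.inl rfl))
    · exact dist (Or.inr (Or.inr (Or.inl rfl)))
    · exact absurd rfl t3
    · exact absurd rfl t4
  · have hc : i = .inf ∨ i = .rs ∨ i = .r ∨ i = .far := by
      cases i <;> revert hi <;> decide
    rcases hc with rfl | rfl | rfl | rfl
    · exact cinf rfl
    · exact absurd rfl crs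
    · exact dist (Or.inl rfl)
    · exact dist (Or.inr (Or.inl rfl))

end Vale.Agent.P088.R2.H871.E
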