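import Vale.Agent.P088.R2.H871.E.Pb

/-!
# P088, stage 3, EST': the cut-offs are flat relative to the rates, where `tinf > 0`, not deep
-/

open Set Filter
open scoped ContDiff Topology Matrix

noncomputable section

namespace Vale.Agent.P088.R2.H871.E

open Vale.Agent.P088.LR Vale.Agent.P088.HY
open Vale.Agent.P088.R2.H31.EP
open Vale.Agent.P088.R2.H464.Cu (mid dif rq bf)
open Vale.Agent.P088.R2.H867.EP
open Vale.Agent.P088.R2.H404.INF (InfC evInf LvG en2 en2_nonneg)

variable {n : ℕ} {q : Cst} {d : Pk n} {z : VV n}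

/-- The bound of the derivatives of the cuts of the near tree. -/
def bA (q : Cst) : ℝ := 2 * cSt * (q.L + 3) + bD q + 1

theorem ev_num (n : ℕ) (δ : Cst → ℝ) (hδ : NB_R δ) : EvC fun q => 0 < δ q →
    (25 ≤ q.R ∧ 300 / (q.κ₁ * q.R) ≤ 1) ∧
    n * (7 * BF * (300 / (q.κ₁ * q.R))) ^ 2 ≤ δ q * (q.σ / q.R) ∧
    n * (7 * BF * bA q) ^ 2 ≤ δ q * (q.σ / q.R * Real.exp (2 * q.R)) := by
  have key : EvC fun q => 0 < δ q → 0 < q.κ₁ → 0 < q.σ →
    (25 ≤ q.R ∧ 300 / (q.κ₁ * q.R) ≤ 1) ∧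
    n * (7 * BF * (300 / (q.κ₁ * q.R))) ^ 2 ≤ δ q * (q.σ / q.R) ∧
    n * (7 * BF * bA q) ^ 2 ≤ δ q * (q.σ / q.R * Real.exp (2 * q.R)) := by
    refine (EvC.at_R (fun q t => 0 < δ q → 0 < q.κ₁ → 0 < q.σ →
      (25 ≤ t ∧ 300 / (q.κ₁ * t) ≤ 1) ∧
      n * (7 * BF * (300 / (q.κ₁ * t))) ^ 2 ≤ δ q * (q.σ / t) ∧
      n * (7 * BF * bA q) ^ 2 ≤ δ q * (q.σ / t * Real.exp (2 * t))) fun q => ?_).mono
        fun q hq => ?_
    · by_cases hk : 0 < δ q ∧ 0 < q.κ₁ ∧ 0 < q.σ
      · obtain ⟨h1, h2, h3⟩ := hk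
        filter_upwards [eventually_ge_atTop 25, eventually_ge_atTop (300 / q.κ₁),
          eventually_ge_atTop (n * (7 * BF * (300 / q.κ₁)) ^ 2 / (δ q * q.σ)),
          eventually_ge_atTop (n * (7 * BF * bA q) ^ 2 / (δ q * q.σ))] with t a b c e _ _ _
        have ht : 0 < t := by linarith
        have hds : 0 < δ q * q.σ := by positivity
        refine ⟨⟨a, ?_⟩, ?_, ?_⟩
        · rw [div_le_iff₀ (by positivity)]
          rw [div_le_iff₀ h2] at b
          linarith
        · rw [div_le_iff₀ hds] at c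
          have e1 : n * (7 * BF * (300 / (q.κ₁ * t))) ^ 2 =
              n * (7 * BF * (300 / q.κ₁)) ^ 2 / t ^ 2 := by
            field_simp
          have e2 : δ q * (q.σ / t) = t * (δ q * q.σ) / t ^ 2 := by
            field_simp
          rw [e1, e2]
          exact div_le_div_of_nonneg_right c (by positivity)
        · rw [div_le_iff₀ hds] at e
          have k1 := Real.add_one_le_exp t
          have k2 : t ^ 2 ≤ Real.exp (2 * t) := by
            have : Real.exp (2 * t) = Real.exp t ^ 2 := by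
              rw [← Real.exp_nat_mul]; norm_num
            rw [this]
            exact pow_le_pow_left₀ ht.le (by linarith) 2
          have k3 : δ q * q.σ / t * t ^ 2 ≤ δ q * q.σ / t * Real.exp (2 * t) :=
            mul_le_mul_of_nonneg_left k2 (by positivity)
          have e3 : δ q * q.σ / t * t ^ 2 = t * (δ q * q.σ) := by
            field_simp
          have e4 : δ q * (q.σ / t * Real.exp (2 * t)) =
              δ q * q.σ / t * Real.exp (2 * t) := by ring
          rw [e4]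
          linarith
      · refine Eventually.of_forall fun _ a b c => absurd ⟨a, b, c⟩ hk
    · have := hδ q
      simp only [this] at hq
      exact hq
  exact (key.and EvC.pos).mono fun q hq h => hq.1 h hq.2.2.1.1 hq.2.2.1.2.1

/-- **The cut-offs where `tinf > 0`, not deep.** -/
theorem ev_ZS (n : ℕ) (hn : 1 ≤ n) (δ : Cst → ℝ) (hδ : NB_R δ) : EvC fun q => 0 < δ q →
    ∀ d : Pk n, PkOk q d → ∀ z : VV n, In3 q d z → ∀ k, d.ch q k z ≠ 0 →
      (Inf k ∨ ¬d.u0 z < -(3 / 2) * (q.R / q.σ)) →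
      (∑ i, d.sx.D i (d.ch q k) z ^ 2 ≤ δ q * (q.σ / q.R * deriv d.Φ (d.u0 z)) ∧
        ∑ i, d.sy.D i (d.ch q k) z ^ 2 ≤ δ q * (q.σ / q.R * deriv d.Φ (d.u0 z))) := by
  refine ((((ev_num n δ hδ).and (EvC.liv n)).and ((EvC.litSm n).and evInf)).and
    ((((EvC.far_off n).and (EvC.rs_b n)).and ((EvC.top n).and (EvC.u_eq n))).and
      (((EvC.fla n hn).and (EvC.cpOk n)).and EvC.pos))).mono ?_
  rintro q ⟨⟨⟨hnum, hliv⟩, hlit, hI⟩, ⟨⟨hfar, hrs⟩, htop, hu⟩, ⟨hfla, hcp⟩, ⟨-, -, hnm, -⟩,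
    ⟨hκ, hσ, -, -, -, hC3, -⟩, hM, -, -, -, -, hR1⟩ h0 d h z hz k hal hcase
  obtain ⟨⟨hR25, hsm1⟩, n1, n2⟩ := hnum h0
  have hR : 0 < q.R := hI.R0
  have hsm := hlit d h
  have hs : 0 < q.σ / q.R := div_pos hσ hR
  have hN : 1 ≤ deriv d.Φ (d.u0 z) := hM.trans (h.N_ge _)
  have hL : 0 ≤ q.L := by
    unfold Cst.L
    positivity
  have c0 : 0 ≤ cSt := zero_le_one.trans cSt_one
  have fin : ∀ b : ℝ, (∀ v : VV n, ∀ i ∈ path k, 0 < d.cv q i z → d.cv q i z < 1 →
      |fderiv ℝ (d.cv q i) z v| ≤ b * en2 v) →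
      n * (7 * BF * b) ^ 2 ≤ δ q * (q.σ / q.R * deriv d.Φ (d.u0 z)) →
      (∑ i, d.sx.D i (d.ch q k) z ^ 2 ≤ δ q * (q.σ / q.R * deriv d.Φ (d.u0 z)) ∧
        ∑ i, d.sy.D i (d.ch q k) z ^ 2 ≤ δ q * (q.σ / q.R * deriv d.Φ (d.u0 z))) := by
    intro b hb hb'
    obtain ⟨x1, x2⟩ := Z_le hsm hb
    exact ⟨x1.trans hb', x2.trans hb'⟩
  have small : n * (7 * BF * (300 / (q.κ₁ * q.R))) ^ 2 ≤
      δ q * (q.σ / q.R * deriv d.Φ (d.u0 z)) := by
    refine n1.trans ?_
    refine mul_le_mul_of_nonneg_left ?_ h0.le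
    exact le_mul_of_one_le_right hs.le hN
  have large : Real.exp (2 * q.R) ≤ deriv d.Φ (d.u0 z) →
      n * (7 * BF * bA q) ^ 2 ≤ δ q * (q.σ / q.R * deriv d.Φ (d.u0 z)) := fun hl =>
    n2.trans (mul_le_mul_of_nonneg_left (mul_le_mul_of_nonneg_left hl hs.le) h0.le)
  by_cases hkI : Inf k
  · exact fin _ (fun v => inf_b hI h hkI v) small
  have hti := tinf_of hkI hal
  have hcp' := hcp d h
  obtain ⟨l1, l2⟩ := l0_bd h hR1 hI.C1
  have hue := hu d h z hz.i hz.x hz.y
  have hbD : 0 ≤ bD q := by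
    have h3 : 0 < q.c₀ := hcp'.c₀
    have h4 := hcp'.r₁
    have h5 := sq_lt hcp'.r₁ hcp'.r₂
    have h6 := hcp'.p₁
    have h7 := sq_lt hcp'.p₁ hcp'.p₂
    have h8 := hcp'.q₁
    have h9 := sq_lt hcp'.q₁ hcp'.q₂
    have t2 : 0 ≤ 2 * (2 * q.p₁) / ((2 * q.p₁) ^ 2 - (3 / 2 * q.p₁) ^ 2) := by
      have : 0 < 3 / 2 * q.p₁ := h4
      have : 0 < (2 * q.p₁) ^ 2 - (3 / 2 * q.p₁) ^ 2 := h5
      exact div_nonneg (by linarith) this.le
    have t3 : 0 ≤ 2 * q.p₂ / (q.p₂ ^ 2 - q.p₁ ^ 2) := by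
      have h3 : 0 < q.p₁ := h6
      have h4 : q.p₁ < q.p₂ := hcp'.p₂
      have : 0 < q.p₂ ^ 2 - q.p₁ ^ 2 := h7
      exact div_nonneg (by linarith) this.le
    have t4 : 0 ≤ 2 * (prR q.e₁ + 1) / ((prR q.e₁ + 1) ^ 2 - prR q.e₁ ^ 2) := by
      have h3 : 0 < prR q.e₁ := h8
      have : 0 < (prR q.e₁ + 1) ^ 2 - prR q.e₁ ^ 2 := h9
      exact div_nonneg (by linarith) this.le
    have t1 : 0 ≤ 2 * (2 * q.c₀) / ((2 * q.c₀) ^ 2 - q.c₀ ^ 2) := by
      have : 0 < (2 * q.c₀) ^ 2 - q.c₀ ^ 2 := sq_lt h3 (by linarith)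
      exact div_nonneg (by linarith) this.le
    unfold bD; linarith
  have hrs0 : 0 ≤ 2 * cSt * (q.L + 3) := by positivity
  have i_inf : ∀ v : VV n, 0 < d.cv q .inf z → d.cv q .inf z < 1 →
      |fderiv ℝ (d.cv q .inf) z v| ≤ bA q * en2 v := fun v h1 h2 => by
    refine (inf_b' hI h v h1 h2).trans (mul_le_mul_of_nonneg_right ?_ (en2_nonneg v))
    unfold bA
    linarith
  rcases (hliv d h z hz.i k hkI hal).cas with ⟨hk, hq⟩ | ⟨hk, hdeep⟩ | ⟨hk, hhigh⟩
  · obtain ⟨o1, o2, o3⟩ := hfar d h z hq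
    have on_of : ∀ i ∈ path k, 0 < d.cv q i z → d.cv q i z < 1 → i = .inf ∨ i = .rs := by
      intro i hi h1 h2
      rcases hk with rfl | rfl
      · have hc : i = .inf ∨ i = .rs ∨ i = .rS := by cases i <;> revert hi <;> decide
        rcases hc with rfl | rfl | rfl
        · exact Or.inl rfl
        · exact Or.inr rfl
        · exact absurd h2 (not_lt.2 o3)
      · have hc : i = .inf ∨ i = .rs ∨ i = .r ∨ i = .far := by
          cases i <;> revert hi <;> decide
        rcases hc with rfl | rfl | rfl | rfl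
        · exact Or.inl rfl
        · exact Or.inr rfl
        · exact absurd h2 (not_lt.2 o1)
        · exact absurd h2 (not_lt.2 o2)
    by_cases hon : 0 < d.cv q .rs z ∧ d.cv q .rs z < 1
    · refine fin (bA q) (fun v i hi h1 h2 => ?_) (large ?_)
      · rcases on_of i hi h1 h2 with rfl | rfl
        · exact i_inf v h1 h2
        · refine (hrs d h z hz.i hti v).trans (mul_le_mul_of_nonneg_right ?_ (en2_nonneg v))
          unfold bA
          linarith
      · have h1 : 0 < d.VS q (d.u q z) := by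
          have : d.cv q .rs z = (d.VS q (d.u q z) - 0) / 1 := rfl
          rw [this] at hon
          linarith [hon.1]
        rw [hue] at h1
        unfold Pk.VS at h1
        have s1 := Real.smoothTransition.nonneg
          (Real.log (deriv d.Φ (d.u0 z)) - d.u0 z - Real.log q.nm)
        have s2 := Real.smoothTransition.nonneg (d.u0 z - d.uth q)
        have p1 : 0 < Real.log (deriv d.Φ (d.u0 z)) - d.u0 z - Real.log q.nm := by
          by_contra hc
          rw [Real.smoothTransition.zero_of_nonpos (not_lt.1 hc), zero_mul] at h1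
          exact lt_irrefl _ h1
        have p2 : 0 < d.u0 z - d.uth q := by
          by_contra hc
          rw [Real.smoothTransition.zero_of_nonpos (not_lt.1 hc), mul_zero] at h1
          exact lt_irrefl _ h1
        have e2 : d.uth q = 2 * d.l₀ q + 22 / 10 * q.R := rfl
        have l3 := Real.log_nonneg hnm
        rw [← Real.le_log_iff_exp_le (by linarith)]
        linarith
    · refine fin _ (fun v i hi h1 h2 => ?_) small
      rcases on_of i hi h1 h2 with rfl | rfl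
      · exact inf_b' hI h v h1 h2
      · exact absurd ⟨h1, h2⟩ hon
  · rcases hcase with hc | hc
    · exact absurd hc hkI
    · exact absurd hdeep hc
  · have hF := hfla d h z hti (Or.inr hhigh.le)
    have nr := (hliv d h z hz.i k hkI hal).nr
    have hup := nr.ok.up
    have h3 : d.u0 z = d.l z.1 + d.l z.2 := rfl
    have htp := htop d h (d.u0 z) (by linarith) (by linarith)
    have hV : d.cv q .rs z = 1 := by
      have : d.cv q .rs z = (d.VS q (d.u q z) - 0) / 1 := rfl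
      rw [this, hue, htp.1]
      norm_num
    refine fin (bA q) (fun v i hi h1 h2 => ?_) (large ?_)
    · have hc : i = .inf ∨ i = .rs ∨ i = .rS := by
        rcases hk with rfl | rfl <;> cases i <;> revert hi <;> decide
      rcases hc with rfl | rfl | rfl
      · exact i_inf v h1 h2
      · rw [hV] at h2
        exact absurd h2 (lt_irrefl _)
      · refine (dist_b hcp' hF (i := .rS) (by tauto) v h2).trans
          (mul_le_mul_of_nonneg_right ?_ (en2_nonneg v))
        unfold bA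
        linarith
    · rw [← Real.le_log_iff_exp_le (by linarith)]
      have : 0 ≤ q.L * (q.R / 20 - 5 / 4) := mul_nonneg hL (by linarith)
      linarith [htp.2]

end Vale.Agent.P088.R2.H871.E
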